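import Mathlib

/-!
Turing reducibility between total 0/1 functions, presented by prefix functionals.
-/

namespace Vale.Agent.P327

open Primrec

/-- Cantor space. -/
abbrev Cant : Type := ℕ → Bool

/-- Characteristic function, as a partial function. -/
def chi (A : Cant) : ℕ →. ℕ := fun n => Part.some (A n).toNat

/-- Turing reducibility on Cantor space. -/
def TR (A B : Cant) : Prop := TuringReducible (chi A) (chi B)

theorem TR.refl (A : Cant) : TR A A := TuringReducible.refl _

theorem TR.trans {A B C : Cant} (h₁ : TR A B) (h₂ : TR B C) : TR A C :=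
  TuringReducible.trans h₁ h₂

/-- The initial segment of length `k`. -/
def pre (A : Cant) (k : ℕ) : List Bool := (List.range k).map A

@[simp] theorem length_pre (A : Cant) (k : ℕ) : (pre A k).length = k := by simp [pre]

theorem pre_succ (A : Cant) (k : ℕ) : pre A (k+1) = pre A k ++ [A k] := by
  simp [pre, List.range_succ]

theorem getElem?_pre (A : Cant) (k i : ℕ) :
    (pre A k)[i]? = if i < k then some (A i) else none := by
  by_cases h : i < k <;> simp [pre, h]

theorem take_pre (A : Cant) {j k : ℕ} (h : j ≤ k) : (pre A k).take j = pre A j := by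
  simp [pre, ← List.map_take, List.take_range, min_eq_left h]

theorem pre_prefix (A : Cant) {j k : ℕ} (h : j ≤ k) : pre A j <+: pre A k := by
  rw [← take_pre A h]; exact List.take_prefix _ _

theorem pre_congr {A B : Cant} {k : ℕ} (h : ∀ i < k, A i = B i) : pre A k = pre B k := by
  apply List.map_congr_left
  intro i hi
  exact h i (by simpa using hi)

theorem pre_eq_iff {A B : Cant} {k : ℕ} : pre A k = pre B k ↔ ∀ i < k, A i = B i := by
  refine ⟨fun h i hi => ?_, pre_congr⟩
  have := congrArg (fun l : List Bool => l[i]?) h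
  simp only [getElem?_pre, hi, if_true, Option.some.injEq] at this
  exact this

/-- A prefix functional. -/
abbrev Fnl : Type := List Bool → ℕ → Option Bool

/-- `v` is the first value found on input `n`. -/
def Hit (f : Fnl) (B : Cant) (n : ℕ) (v : Bool) : Prop :=
  ∃ k, f (pre B k) n = some v ∧ ∀ j < k, f (pre B j) n = none

/-- `f` computes `A` from `B`. -/
def Red (f : Fnl) (B A : Cant) : Prop := ∀ n, Hit f B n (A n)

theorem Hit.unique {f : Fnl} {B : Cant} {n : ℕ} {v w : Bool}
    (h₁ : Hit f B n v) (h₂ : Hit f B n w) : v = w := by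
  obtain ⟨k, hk, hk'⟩ := h₁
  obtain ⟨l, hl, hl'⟩ := h₂
  rcases lt_trichotomy k l with h | h | h
  · simp [hl' k h] at hk
  · subst h; simpa [hk] using hl
  · simp [hk' l h] at hl

theorem Red.unique {f : Fnl} {B A A' : Cant} (h₁ : Red f B A) (h₂ : Red f B A') : A = A' :=
  funext fun n => (h₁ n).unique (h₂ n)

/-- A sound and total functional is a reduction. -/
theorem red_of_sound {f : Fnl} {B A : Cant} (h₁ : ∀ n, ∃ k v, f (pre B k) n = some v)
    (h₂ : ∀ n k v, f (pre B k) n = some v → v = A n) : Red f B A := by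
  intro n
  classical
  have hex : ∃ k, (f (pre B k) n).isSome := by
    obtain ⟨k, v, h⟩ := h₁ n
    exact ⟨k, by simp [h]⟩
  obtain ⟨v, hv⟩ := Option.isSome_iff_exists.1 (Nat.find_spec hex)
  refine ⟨Nat.find hex, ?_, fun j hj => ?_⟩
  · rw [hv, h₂ n _ v hv]
  · simpa using Nat.find_min hex hj

section toTR

variable {O : Set (ℕ →. ℕ)}

theorem recIn_comp_primrec {g : ℕ → ℕ} {f : ℕ → ℕ} (hf : Nat.RecursiveIn O (fun n => Part.some (f n)))
    (hg : Primrec g) : Nat.RecursiveIn O (fun n => Part.some (g (f n))) :=
  ((Nat.RecursiveIn.comp (Nat.Primrec.recursiveIn (Primrec.nat_iff.1 hg)) hf)).of_eq fun n => by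
    simp

theorem recIn_pair {f g : ℕ → ℕ} (hf : Nat.RecursiveIn O (fun n => Part.some (f n)))
    (hg : Nat.RecursiveIn O (fun n => Part.some (g n))) :
    Nat.RecursiveIn O (fun n => Part.some (Nat.pair (f n) (g n))) :=
  (Nat.RecursiveIn.pair hf hg).of_eq fun n => by
    simp [Seq.seq]

theorem recIn_prim {g : ℕ → ℕ} (hg : Primrec g) : Nat.RecursiveIn O (fun n => Part.some (g n)) :=
  Nat.Primrec.recursiveIn (Primrec.nat_iff.1 hg)

theorem recIn_pre (B : Cant) :
    Nat.RecursiveIn {chi B} (fun k => Part.some (Encodable.encode (pre B k))) := by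
  let O : Set (ℕ →. ℕ) := {chi B}
  let step : ℕ → ℕ := fun z =>
    Encodable.encode (((Encodable.decode (α := List Bool) z.unpair.1).getD []) ++
      [decide (z.unpair.2 = 1)])
  have hstep : Primrec step := by
    refine Primrec.encode.comp ?_
    exact Primrec.list_concat.comp
      (Primrec.option_getD.comp (Primrec.decode.comp (Primrec.fst.comp Primrec.unpair))
        (Primrec.const []))
      ((Primrec.eq.comp (Primrec.snd.comp Primrec.unpair) (Primrec.const 1)).decide)
  -- the recursion step
  have hy : Nat.RecursiveIn O (fun p => Part.some (B (p.unpair.2.unpair.1)).toNat) := by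
    refine (Nat.RecursiveIn.comp (f := fun i => Part.some (B i).toNat)
      (Nat.RecursiveIn.oracle (chi B) (Set.mem_singleton _))
      (recIn_prim (Primrec.fst.comp (Primrec.unpair.comp (Primrec.snd.comp Primrec.unpair))))).of_eq
      fun n => ?_
    simp
  have hi : Nat.RecursiveIn O (fun p => Part.some (p.unpair.2.unpair.2)) :=
    recIn_prim (Primrec.snd.comp (Primrec.unpair.comp (Primrec.snd.comp Primrec.unpair)))
  have hh := recIn_comp_primrec (recIn_pair hi hy) hstep
  have hrec := Nat.RecursiveIn.prec (recIn_prim (O := O) (Primrec.const (Encodable.encode ([] : List Bool)))) hh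
  have hin : Nat.RecursiveIn O (fun k => Part.some (Nat.pair 0 k)) :=
    recIn_prim (Primrec₂.natPair.comp (Primrec.const 0) Primrec.id)
  refine (Nat.RecursiveIn.comp hrec hin).of_eq fun k => ?_
  simp only [Part.bind_eq_bind, Part.bind_some, Nat.unpair_pair]
  induction k with
  | zero => simp [pre]
  | succ k ih =>
    dsimp only at ih ⊢
    rw [ih]
    simp [step, pre_succ]

theorem tr_of_red {f : Fnl} (hf : Primrec₂ f) {A B : Cant} (h : Red f B A) : TR A B := by
  show RecursiveIn {chi B} (chi A)
  rw [RecursiveIn.iff_nat]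
  let O : Set (ℕ →. ℕ) := {chi B}
  let look : ℕ → Option Bool := fun z =>
    f ((Encodable.decode (α := List Bool) z.unpair.2).getD []) z.unpair.1.unpair.1
  have hlook : Primrec look := hf.comp
    (Primrec.option_getD.comp (Primrec.decode.comp (Primrec.snd.comp Primrec.unpair))
      (Primrec.const []))
    (Primrec.fst.comp (Primrec.unpair.comp (Primrec.fst.comp Primrec.unpair)))
  have hsnd : Nat.RecursiveIn O (fun z => Part.some (Encodable.encode (pre B z.unpair.2))) := by
    refine (Nat.RecursiveIn.comp (recIn_pre B)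
      (recIn_prim (Primrec.snd.comp Primrec.unpair))).of_eq fun n => ?_
    simp
  have hin : Nat.RecursiveIn O (fun z => Part.some (Nat.pair z (Encodable.encode (pre B z.unpair.2)))) :=
    recIn_pair (recIn_prim Primrec.id) hsnd
  have htest := recIn_comp_primrec hin (g := fun z => bif (look z).isSome then 0 else 1)
    (Primrec.cond (Primrec.option_isSome.comp hlook) (Primrec.const 0) (Primrec.const 1))
  have hval := recIn_comp_primrec hin (g := fun z => ((look z).getD false).toNat)
    (((Primrec.dom_finite Bool.toNat)).comp (Primrec.option_getD.comp hlook (Primrec.const false)))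
  have hfind := Nat.RecursiveIn.rfind htest
  have hidp := Nat.RecursiveIn.pair (recIn_prim (O := O) Primrec.id) hfind
  refine (Nat.RecursiveIn.comp hval hidp).of_eq fun n => ?_
  obtain ⟨k, hk, hk'⟩ := h n
  have hs : ∀ j, look (Nat.pair (Nat.pair n j) (Encodable.encode (pre B j))) = f (pre B j) n := by
    intro j; simp [look, Encodable.encodek]
  simp only [Part.bind_eq_bind, Nat.unpair_pair, id]
  rw [chi, Part.eq_some_iff]
  refine Part.mem_bind_iff.2 ⟨Nat.pair n k, ?_, ?_⟩
  · simp only [Seq.seq, Part.map_eq_map, Part.mem_bind_iff, Part.mem_map_iff, Part.mem_some_iff,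
      Part.map_some, exists_eq_left, hs]
    refine ⟨k, Nat.mem_rfind.2 ⟨by simp [hk], fun {m} hm => by simp [hk' m hm]⟩, rfl⟩
  · simp [hs, hk]

/-- Prefix approximations for a partial function. -/
def Approx (B : Cant) (g : ℕ →. ℕ) : Prop :=
  ∃ F : List Bool → ℕ → Option ℕ, Primrec₂ F ∧
    (∀ σ τ n v, σ <+: τ → F σ n = some v → F τ n = some v) ∧
    ∀ n v, v ∈ g n ↔ ∃ k, F (pre B k) n = some v

theorem approx_total {B : Cant} {g : ℕ → ℕ} (hg : Primrec g) :
    Approx B (fun n => Part.some (g n)) :=
  ⟨fun _ n => some (g n), (Primrec.option_some.comp (hg.comp Primrec.snd)).to₂,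
    fun _ _ _ _ _ h => h, fun n v => by simp [eq_comm]⟩

theorem approx_of_recIn {B : Cant} {g : ℕ →. ℕ} (h : Nat.RecursiveIn {chi B} g) : Approx B g := by
  induction h with
  | zero => exact approx_total (Primrec.const 0)
  | succ => exact approx_total Primrec.succ
  | left => exact approx_total (Primrec.fst.comp Primrec.unpair)
  | right => exact approx_total (Primrec.snd.comp Primrec.unpair)
  | oracle g hg =>
    rw [Set.mem_singleton_iff] at hg
    subst hg
    refine ⟨fun σ n => (σ[n]?).map Bool.toNat, ?_, ?_, ?_⟩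
    · exact Primrec.option_map Primrec.list_getElem?
        ((Primrec.dom_finite Bool.toNat).comp Primrec.snd).to₂
    · intro σ τ n v hστ h
      simp only [Option.map_eq_some_iff] at h ⊢
      obtain ⟨b, hb, rfl⟩ := h
      obtain ⟨r, rfl⟩ := hστ
      obtain ⟨hn, _⟩ := List.getElem?_eq_some_iff.1 hb
      exact ⟨b, by rw [List.getElem?_append_left hn]; exact hb, rfl⟩
    · intro n v
      simp only [chi, Part.mem_some_iff, getElem?_pre]
      constructor
      · rintro rfl; exact ⟨n+1, by simp⟩
      · rintro ⟨k, hk⟩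
        split_ifs at hk with h
        · simpa [eq_comm] using hk
        · simp at hk
  | @pair p q _ _ ihp ihq =>
    obtain ⟨F, hF, hFm, hFs⟩ := ihp
    obtain ⟨H, hH, hHm, hHs⟩ := ihq
    refine ⟨fun σ n => (F σ n).bind fun a => (H σ n).map (Nat.pair a), ?_, ?_, ?_⟩
    · exact Primrec.option_bind hF (Primrec.option_map (hH.comp (Primrec.fst.comp Primrec.fst)
        (Primrec.snd.comp Primrec.fst)) (Primrec₂.natPair.comp (Primrec.snd.comp Primrec.fst)
          Primrec.snd).to₂).to₂
    · intro σ τ n v hστ h
      simp only [Option.bind_eq_some_iff, Option.map_eq_some_iff] at h ⊢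
      obtain ⟨a, ha, b, hb, rfl⟩ := h
      exact ⟨a, hFm σ τ n a hστ ha, b, hHm σ τ n b hστ hb, rfl⟩
    · intro n v
      simp only [Option.bind_eq_some_iff, Option.map_eq_some_iff]
      simp only [Seq.seq, Part.map_eq_map, Part.mem_bind_iff, Part.mem_map_iff,
        exists_exists_and_eq_and]
      constructor
      · rintro ⟨a, ha, b, hb, rfl⟩
        obtain ⟨k, hk⟩ := (hFs n a).1 ha
        obtain ⟨l, hl⟩ := (hHs n b).1 hb
        exact ⟨max k l, a, hFm _ _ _ _ (pre_prefix B (le_max_left _ _)) hk, b,
          hHm _ _ _ _ (pre_prefix B (le_max_right _ _)) hl, rfl⟩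
      · rintro ⟨k, a, ha, b, hb, rfl⟩
        exact ⟨a, (hFs n a).2 ⟨k, ha⟩, b, (hHs n b).2 ⟨k, hb⟩, rfl⟩
  | @comp p q _ _ ihp ihq =>
    obtain ⟨F, hF, hFm, hFs⟩ := ihp
    obtain ⟨H, hH, hHm, hHs⟩ := ihq
    refine ⟨fun σ n => (H σ n).bind (F σ), ?_, ?_, ?_⟩
    · exact Primrec.option_bind hH (hF.comp (Primrec.fst.comp Primrec.fst) Primrec.snd).to₂
    · intro σ τ n v hστ h
      simp only [Option.bind_eq_some_iff] at h ⊢
      obtain ⟨a, ha, hv⟩ := h
      exact ⟨a, hHm σ τ n a hστ ha, hFm σ τ a v hστ hv⟩
    · intro n v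
      simp only [Option.bind_eq_some_iff]
      refine (Part.mem_bind_iff (f := q n) (g := p) (b := v)).trans ?_
      constructor
      · rintro ⟨a, ha, hv⟩
        obtain ⟨k, hk⟩ := (hHs n a).1 ha
        obtain ⟨l, hl⟩ := (hFs a v).1 hv
        exact ⟨max k l, a, hHm _ _ _ _ (pre_prefix B (le_max_left _ _)) hk,
          hFm _ _ _ _ (pre_prefix B (le_max_right _ _)) hl⟩
      · rintro ⟨k, a, ha, hv⟩
        exact ⟨a, (hHs n a).2 ⟨k, ha⟩, (hFs a v).2 ⟨k, hv⟩⟩
  | @prec p q _ _ ihp ihq =>
    obtain ⟨F, hF, hFm, hFs⟩ := ihp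
    obtain ⟨H, hH, hHm, hHs⟩ := ihq
    let R : List Bool → ℕ → ℕ → Option ℕ := fun σ a m => Nat.rec (F σ a)
      (fun y IH => IH.bind fun i => H σ (Nat.pair a (Nat.pair y i))) m
    refine ⟨fun σ n => R σ n.unpair.1 n.unpair.2, ?_, ?_, ?_⟩
    · refine (Primrec.nat_rec' (Primrec.snd.comp (Primrec.unpair.comp Primrec.snd))
        (hF.comp Primrec.fst (Primrec.fst.comp (Primrec.unpair.comp Primrec.snd)))
        (h := fun q w => w.2.bind fun i => H q.1 (Nat.pair q.2.unpair.1 (Nat.pair w.1 i))) ?_).to₂
      refine (Primrec.option_bind (g := fun (z : (List Bool × ℕ) × (ℕ × Option ℕ)) i =>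
          H z.1.1 (Nat.pair z.1.2.unpair.1 (Nat.pair z.2.1 i)))
        (Primrec.snd.comp Primrec.snd) ?_).to₂
      exact (hH.comp (Primrec.fst.comp (Primrec.fst.comp Primrec.fst))
        (Primrec₂.natPair.comp
          (Primrec.fst.comp (Primrec.unpair.comp (Primrec.snd.comp (Primrec.fst.comp Primrec.fst))))
          (Primrec₂.natPair.comp (Primrec.fst.comp (Primrec.snd.comp Primrec.fst)) Primrec.snd))).to₂
    · intro σ τ n v hστ
      suffices ∀ m a w, R σ a m = some w → R τ a m = some w from this _ _ _
      intro m a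
      induction m with
      | zero => exact fun w => hFm σ τ a w hστ
      | succ m ih =>
        intro w h
        simp only [R, Option.bind_eq_some_iff] at h ⊢
        obtain ⟨i, hi, hv⟩ := h
        exact ⟨i, ih i hi, hHm σ τ _ w hστ hv⟩
    · intro n
      dsimp only
      generalize n.unpair.1 = a
      generalize n.unpair.2 = m
      induction m with
      | zero => exact hFs a
      | succ m ih =>
        intro v
        simp only [R, Option.bind_eq_some_iff, Part.bind_eq_bind, Part.mem_bind_iff]
        constructor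
        · rintro ⟨i, hi, hv⟩
          obtain ⟨k, hk⟩ := (ih i).1 hi
          obtain ⟨l, hl⟩ := (hHs _ v).1 hv
          have mono : ∀ (m' : ℕ) (σ τ : List Bool) (w : ℕ), σ <+: τ → R σ a m' = some w →
              R τ a m' = some w := by
            intro m' σ τ
            induction m' with
            | zero => exact fun w hστ => hFm σ τ a w hστ
            | succ m' ih' =>
              intro w hστ h
              simp only [R, Option.bind_eq_some_iff] at h ⊢
              obtain ⟨j, hj, hw⟩ := h
              exact ⟨j, ih' j hστ hj, hHm σ τ _ w hστ hw⟩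
          exact ⟨max k l, i, mono m _ _ _ (pre_prefix B (le_max_left _ _)) hk,
            hHm _ _ _ _ (pre_prefix B (le_max_right _ _)) hl⟩
        · rintro ⟨k, i, hi, hv⟩
          exact ⟨i, (ih i).2 ⟨k, hi⟩, (hHs _ v).2 ⟨k, hv⟩⟩
  | @rfind p _ ihp =>
    obtain ⟨F, hF, hFm, hFs⟩ := ihp
    let G : List Bool → ℕ → ℕ := fun σ a =>
      (List.range σ.length).findIdx fun m => decide ((F σ (Nat.pair a m)).getD 0 = 0)
    let T : List Bool → ℕ → Option ℕ := fun σ a =>
      bif (decide (G σ a < σ.length) && decide (F σ (Nat.pair a (G σ a)) = some 0))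
      then some (G σ a) else none
    have hspec : ∀ σ a v, T σ a = some v ↔
        v < σ.length ∧ F σ (Nat.pair a v) = some 0 ∧
          ∀ m < v, ∃ w, w ≠ 0 ∧ F σ (Nat.pair a m) = some w := by
      intro σ a v
      constructor
      · intro h
        rw [show T σ a = if (G σ a < σ.length ∧ F σ (Nat.pair a (G σ a)) = some 0) then
          some (G σ a) else none by simp [T, Bool.cond_eq_ite]] at h
        split_ifs at h with h'
        cases h
        refine ⟨h'.1, h'.2, fun m hm => ?_⟩
        have hlen : m < (List.range σ.length).length := by simp; exact hm.trans h'.1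
        have := List.not_of_lt_findIdx (p := fun m => decide ((F σ (Nat.pair a m)).getD 0 = 0))
          (xs := List.range σ.length) hm
        simp at this
        cases hFv : F σ (Nat.pair a m) with
        | none => simp [hFv] at this
        | some w => exact ⟨w, by simpa [hFv] using this, rfl⟩
      · rintro ⟨hv, h0, hlt⟩
        have hG : G σ a = v := by
          refine (List.findIdx_eq (by simpa using hv)).2 ⟨by simp [h0], fun j hj => ?_⟩
          obtain ⟨w, hw0, hw⟩ := hlt j hj
          simp [hw, hw0]
        simp [T, hG, hv, h0]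
    refine ⟨T, ?_, ?_, ?_⟩
    · have hG : Primrec₂ G := (Primrec.list_findIdx (Primrec.list_range.comp (Primrec.list_length.comp Primrec.fst))
        ((Primrec.eq.comp (Primrec.option_getD.comp
          (hF.comp (Primrec.fst.comp Primrec.fst) (Primrec₂.natPair.comp (Primrec.snd.comp Primrec.fst) Primrec.snd))
          (Primrec.const 0)) (Primrec.const 0)).decide).to₂).to₂
      refine (Primrec.cond (Primrec.and.comp
        ((Primrec.nat_lt.comp hG (Primrec.list_length.comp Primrec.fst)).decide)
        ((Primrec.eq.comp (hF.comp Primrec.fst (Primrec₂.natPair.comp Primrec.snd hG))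
          (Primrec.const (some 0))).decide))
        (Primrec.option_some.comp hG) (Primrec.const none)).to₂
    · intro σ τ n v hστ h
      rw [hspec] at h ⊢
      exact ⟨h.1.trans_le hστ.length_le, hFm σ τ _ _ hστ h.2.1, fun m hm =>
        (h.2.2 m hm).imp fun w hw => ⟨hw.1, hFm σ τ _ _ hστ hw.2⟩⟩
    · intro a v
      simp only [hspec, length_pre]
      refine (Nat.mem_rfind).trans ?_
      simp only [Part.map_eq_map, Part.mem_map_iff]
      constructor
      · rintro ⟨⟨z, hz, hz0⟩, hlt⟩
        simp at hz0
        subst hz0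
        obtain ⟨k, hk⟩ := (hFs _ _).1 hz
        have hl : ∀ m, ∃ k, m < v → ∃ w, w ≠ 0 ∧ F (pre B k) (Nat.pair a m) = some w := by
          intro m
          by_cases hm : m < v
          · obtain ⟨w, hw, hw0⟩ := hlt hm
            obtain ⟨k, hk⟩ := (hFs _ _).1 hw
            exact ⟨k, fun _ => ⟨w, by simpa using hw0, hk⟩⟩
          · exact ⟨0, fun h => absurd h hm⟩
        choose kk hkk using hl
        set K := max (max k (v+1)) ((Finset.range v).sup kk)
        refine ⟨K, ?_, hFm _ _ _ _ (pre_prefix B (by omega)) hk, fun m hm => ?_⟩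
        · omega
        · obtain ⟨w, hw0, hw⟩ := hkk m hm
          have : kk m ≤ (Finset.range v).sup kk := Finset.le_sup (Finset.mem_range.2 hm)
          exact ⟨w, hw0, hFm _ _ _ _ (pre_prefix B (by omega)) hw⟩
      · rintro ⟨k, _, h0, hlt⟩
        refine ⟨⟨0, (hFs _ _).2 ⟨k, h0⟩, by simp⟩, fun {m} hm => ?_⟩
        obtain ⟨w, hw0, hw⟩ := hlt m hm
        exact ⟨w, (hFs _ _).2 ⟨k, hw⟩, by simpa using hw0⟩

theorem red_of_tr {A B : Cant} (h : TR A B) : ∃ f : Fnl, Primrec₂ f ∧ Red f B A := by
  have h' : Nat.RecursiveIn {chi B} (chi A) := RecursiveIn.iff_nat.1 h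
  obtain ⟨F, hF, -, hFs⟩ := approx_of_recIn h'
  refine ⟨fun σ n => (F σ n).map fun v => decide (v = 1), ?_, red_of_sound ?_ ?_⟩
  · exact Primrec.option_map hF ((Primrec.eq.comp Primrec.snd (Primrec.const 1)).decide).to₂
  · intro n
    obtain ⟨k, hk⟩ := (hFs n (A n).toNat).1 (by simp [chi])
    exact ⟨k, _, by simp only [hk]; rfl⟩
  · intro n k v hv
    simp only [Option.map_eq_some_iff] at hv
    obtain ⟨w, hw, rfl⟩ := hv
    have := (hFs n w).2 ⟨k, hw⟩
    simp [chi] at this
    subst this
    cases A n <;> simp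

end toTR

/-- An enumeration of the primitive recursive functionals. -/
instance : Countable {f : Fnl // Primrec₂ f} := by
  classical
  have h : ∀ f : {f : Fnl // Primrec₂ f}, ∃ c : Nat.Partrec.Code,
      Nat.Partrec.Code.eval c = fun z => Part.some
        (Encodable.encode (f.1 ((Encodable.decode (α := List Bool) z.unpair.1).getD []) z.unpair.2)) := by
    intro f
    refine Nat.Partrec.Code.exists_code.1 (Nat.Partrec.of_primrec (Primrec.nat_iff.1 ?_))
    exact Primrec.encode.comp (f.2.comp (Primrec.option_getD.comp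
      (Primrec.decode.comp (Primrec.fst.comp Primrec.unpair)) (Primrec.const []))
      (Primrec.snd.comp Primrec.unpair))
  choose c hc using h
  refine Function.Injective.countable (f := c) fun f g hfg => Subtype.ext (funext fun σ => funext fun n => ?_)
  have := congrFun ((hc f).symm.trans ((congrArg _ hfg).trans (hc g))) (Nat.pair (Encodable.encode σ) n)
  simpa [Encodable.encodek] using this

instance : Inhabited {f : Fnl // Primrec₂ f} :=
  ⟨⟨fun _ _ => none, (Primrec.const none).to₂⟩⟩

/-- The `e`-th functional. -/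
noncomputable def fnl (e : ℕ) : {f : Fnl // Primrec₂ f} :=
  (exists_surjective_nat _).choose e

theorem fnl_surj : Function.Surjective fnl := (exists_surjective_nat _).choose_spec

theorem tr_iff {A B : Cant} : TR A B ↔ ∃ e, Red (fnl e).1 B A := by
  constructor
  · intro h
    obtain ⟨f, hf, hr⟩ := red_of_tr h
    obtain ⟨e, he⟩ := fnl_surj ⟨f, hf⟩
    exact ⟨e, by rw [he]; exact hr⟩
  · rintro ⟨e, he⟩
    exact tr_of_red (fnl e).2 he

theorem countable_below (B : Cant) : {A : Cant | TR A B}.Countable := by
  classical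
  have : {A : Cant | TR A B} ⊆ ⋃ e, {A | Red (fnl e).1 B A} := by
    intro A hA
    simpa using tr_iff.1 hA
  refine Set.Countable.mono this (Set.countable_iUnion fun e => ?_)
  exact Set.Subsingleton.countable fun A hA A' hA' => Red.unique hA hA'

end Vale.Agent.P327
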