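import Vale.Agent.P327.Ops

/-!
Baire category on Cantor space: the Kuratowski-Ulam direction that we need, measurability of
reducibility, and cone avoidance.
-/

namespace Vale.Agent.P327

open Topology Filter Set

/-! ### General category lemmas -/

section General

variable {X Y : Type*} [TopologicalSpace X] [TopologicalSpace Y]

theorem ev_comp {f : X → Y} (hc : Continuous f) (ho : IsOpenMap f) {P : Y → Prop}
    (h : ∀ᶠ y in residual Y, P y) : ∀ᶠ x in residual X, P (f x) :=
  (tendsto_residual_of_isOpenMap hc ho).eventually h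

theorem exists_mem_open [BaireSpace X] {P : X → Prop} (h : ∀ᶠ x in residual X, P x) {U : Set X}
    (hU : IsOpen U) (hne : U.Nonempty) : ∃ x ∈ U, P x :=
  (dense_of_mem_residual h).exists_mem_open hU hne |>.imp fun _ hx => ⟨hx.2, hx.1⟩

theorem exists_ev [BaireSpace X] [Nonempty X] {P : X → Prop} (h : ∀ᶠ x in residual X, P x) :
    ∃ x, P x :=
  let ⟨x, _, hx⟩ := exists_mem_open h isOpen_univ univ_nonempty
  ⟨x, hx⟩

/-- Kuratowski-Ulam, one direction. -/
theorem ev_sections [SecondCountableTopology Y] {P : X × Y → Prop}
    (h : ∀ᶠ q in residual (X × Y), P q) :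
    ∀ᶠ x in residual X, ∀ᶠ y in residual Y, P (x, y) := by
  obtain ⟨S, hSo, hSd, hSc, hS⟩ := mem_residual_iff.1 h
  have hB := TopologicalSpace.countable_countableBasis Y
  have hb := TopologicalSpace.isBasis_countableBasis Y
  have := hSc.to_subtype
  have := hB.to_subtype
  have key : ∀ᶠ x in residual X, ∀ t : S, ∀ V : TopologicalSpace.countableBasis Y,
      ∃ y ∈ (V : Set Y), (x, y) ∈ (t : Set (X × Y)) := by
    simp only [eventually_countable_forall]
    intro t V
    apply residual_of_dense_open
    · have : {x | ∃ y ∈ (V : Set Y), (x, y) ∈ (t : Set (X × Y))} =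
          Prod.fst '' ((t : Set (X × Y)) ∩ univ ×ˢ (V : Set Y)) := by
        ext x; simp [and_comm]
      change IsOpen {x | ∃ y ∈ (V : Set Y), (x, y) ∈ (t : Set (X × Y))}
      rw [this]
      exact isOpenMap_fst _ ((hSo _ t.2).inter (isOpen_univ.prod (hb.isOpen V.2)))
    · rw [dense_iff_inter_open]
      intro U hU hne
      have hVne : (V : Set Y).Nonempty := TopologicalSpace.nonempty_of_mem_countableBasis V.2
      obtain ⟨⟨x, y⟩, hxy, ht⟩ := (hSd _ t.2).inter_open_nonempty _ (hU.prod (hb.isOpen V.2))
        (hne.prod hVne)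
      exact ⟨x, hxy.1, y, hxy.2, ht⟩
  filter_upwards [key] with x hx
  have hall : ∀ t : S, ∀ᶠ y in residual Y, (x, y) ∈ (t : Set (X × Y)) := by
    intro t
    refine residual_of_dense_open ((hSo _ t.2).preimage (by fun_prop)) ?_
    rw [hb.dense_iff]
    intro o ho hne
    obtain ⟨y, hy, ht⟩ := hx t ⟨o, ho⟩
    exact ⟨y, hy, ht⟩
  filter_upwards [eventually_countable_forall.2 hall] with y hy
  exact hS (mem_sInter.2 fun t ht => hy ⟨t, ht⟩)

theorem ev_sections' [SecondCountableTopology X] {P : X × Y → Prop}
    (h : ∀ᶠ q in residual (X × Y), P q) :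
    ∀ᶠ y in residual Y, ∀ᶠ x in residual X, P (x, y) :=
  ev_sections (P := fun q : Y × X => P (q.2, q.1))
    (ev_comp (Homeomorph.prodComm Y X).continuous (Homeomorph.prodComm Y X).isOpenMap h)

theorem exists_open_ev [MeasurableSpace X] [BorelSpace X] {S : Set X} (h : MeasurableSet S) :
    ∃ U : Set X, IsOpen U ∧ ∀ᶠ x in residual X, (x ∈ S ↔ x ∈ U) := by
  obtain ⟨U, hU, he⟩ := h.residualEq_isOpen
  exact ⟨U, hU, eventuallyEq_set.1 he⟩

/-- A Borel set with meagre sections is meagre. -/
theorem ev_of_sections [SecondCountableTopology Y] [BaireSpace X] [BaireSpace Y]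
    [MeasurableSpace (X × Y)] [BorelSpace (X × Y)] {S : Set (X × Y)} (hS : MeasurableSet S)
    (h : ∀ᶠ x in residual X, ∀ᶠ y in residual Y, (x, y) ∉ S) :
    ∀ᶠ q in residual (X × Y), q ∉ S := by
  obtain ⟨U, hU, he⟩ := exists_open_ev hS
  have hUe : U = ∅ := by
    by_contra hne
    obtain ⟨⟨x, y⟩, hxy⟩ := nonempty_iff_ne_empty.2 hne
    obtain ⟨a, b, ha, hb, hxa, hyb, hab⟩ := isOpen_prod_iff.1 hU x y hxy
    obtain ⟨x', hx', h1, h2⟩ := exists_mem_open ((ev_sections he).and h) ha ⟨x, hxa⟩
    obtain ⟨y', hy', h3, h4⟩ := exists_mem_open (h1.and h2) hb ⟨y, hyb⟩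
    exact h4 (h3.2 (hab ⟨hx', hy'⟩))
  filter_upwards [he] with q hq
  simp [hq, hUe]

/-- A homeomorphism from a continuous involution. -/
def homeoInv (f : X → X) (hc : Continuous f) (hi : Function.Involutive f) : X ≃ₜ X where
  toEquiv := hi.toPerm f
  continuous_toFun := hc
  continuous_invFun := hc

theorem ev_invol {f : X → X} (hc : Continuous f) (hi : Function.Involutive f) {P : X → Prop}
    (h : ∀ᶠ x in residual X, P x) : ∀ᶠ x in residual X, P (f x) :=
  ev_comp hc (homeoInv f hc hi).isOpenMap h

theorem isOpenMap_of_involutive {f : X → X} (hc : Continuous f) (hi : Function.Involutive f) :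
    IsOpenMap f :=
  (homeoInv f hc hi).isOpenMap

end General

/-! ### Cantor space -/

theorem isOpen_cyl (A : Cant) (k : ℕ) : IsOpen {B : Cant | ∀ i < k, B i = A i} := by
  have h : {B : Cant | ∀ i < k, B i = A i} = ⋂ i ∈ Finset.range k, (fun B : Cant => B i) ⁻¹' {A i} := by
    ext B; simp
  rw [h]
  exact isOpen_biInter_finset fun i _ => (isOpen_discrete _).preimage (continuous_apply i)

theorem nhd_cyl {U : Set Cant} (hU : IsOpen U) {A : Cant} (hA : A ∈ U) :
    ∃ k, ∀ B : Cant, (∀ i < k, B i = A i) → B ∈ U := by
  obtain ⟨I, u, hu, hsub⟩ := isOpen_pi_iff.1 hU A hA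
  refine ⟨I.sup id + 1, fun B hB => hsub fun i hi => ?_⟩
  rw [hB i (Nat.lt_succ_of_le (Finset.le_sup (f := id) hi))]
  exact (hu i hi).2

theorem ev_ne (A : Cant) : ∀ᶠ B in residual Cant, B ≠ A := by
  refine residual_of_dense_open (isClosed_singleton.isOpen_compl) ?_
  rw [dense_iff_inter_open]
  rintro U hU ⟨B, hB⟩
  obtain ⟨k, hk⟩ := nhd_cyl hU hB
  let B' : Cant := fun i => if i < k then B i else !(A i)
  refine ⟨B', hk B' fun i hi => by simp [B', hi], fun h => ?_⟩
  have := congrFun (Set.mem_singleton_iff.1 h) k
  simp [B'] at this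

theorem ev_not_mem_countable {S : Set Cant} (hS : S.Countable) :
    ∀ᶠ B in residual Cant, B ∉ S := by
  have := hS.to_subtype
  filter_upwards [eventually_countable_forall.2 fun a : S => ev_ne (a : Cant)] with B hB hBS
  exact hB ⟨B, hBS⟩ rfl

/-! ### Measurability -/

theorem continuous_jn : Continuous fun q : Cant × Cant => jn q.1 q.2 :=
  continuous_pi fun n => by cases h : n.bodd <;> simp only [jn, h, cond_true, cond_false] <;> fun_prop

theorem measurable_pre (k : ℕ) : @Measurable Cant (List Bool) _ ⊤ (fun B => pre B k) := by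
  induction k with
  | zero =>
    letI : MeasurableSpace (List Bool) := ⊤
    simp only [pre, List.range_zero, List.map_nil]
    exact measurable_const
  | succ k ih =>
    letI : MeasurableSpace (List Bool) := ⊤
    simp only [pre_succ]
    have h1 : Measurable fun B : Cant => (pre B k, B k) := ih.prodMk (measurable_pi_apply k)
    exact (Measurable.of_discrete (f := fun w : List Bool × Bool => w.1 ++ [w.2])).comp h1

theorem measurableSet_red (f : Fnl) : MeasurableSet {q : Cant × Cant | Red f q.1 q.2} := by
  letI : MeasurableSpace (List Bool) := ⊤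
  have h1 : ∀ k n, MeasurableSet {q : Cant × Cant | f (pre q.1 k) n = some (q.2 n)} := fun k n => by
    have hm : Measurable fun q : Cant × Cant => (pre q.1 k, q.2 n) :=
      ((measurable_pre k).comp measurable_fst).prodMk ((measurable_pi_apply n).comp measurable_snd)
    have hd : MeasurableSet {w : List Bool × Bool | f w.1 n = some w.2} := MeasurableSet.of_discrete
    exact hm hd
  have h2 : ∀ k n, MeasurableSet {q : Cant × Cant | f (pre q.1 k) n = none} := fun k n => by
    have hm : Measurable fun q : Cant × Cant => pre q.1 k := (measurable_pre k).comp measurable_fst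
    have hd : MeasurableSet {w : List Bool | f w n = none} := MeasurableSet.of_discrete
    exact hm hd
  have : {q : Cant × Cant | Red f q.1 q.2} = ⋂ n, ⋃ k,
      ({q | f (pre q.1 k) n = some (q.2 n)} ∩ ⋂ j ∈ Finset.range k, {q | f (pre q.1 j) n = none}) := by
    ext q; simp [Red, Hit]
  rw [this]
  exact MeasurableSet.iInter fun n => MeasurableSet.iUnion fun k =>
    (h1 k n).inter (Finset.measurableSet_biInter _ fun j _ => h2 j n)

theorem measurableSet_tr : MeasurableSet {q : Cant × Cant | TR q.1 q.2} := by
  have : {q : Cant × Cant | TR q.1 q.2} = ⋃ e, Prod.swap ⁻¹' {q | Red (fnl e).1 q.1 q.2} := by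
    ext q; simp [tr_iff]
  rw [this]
  exact MeasurableSet.iUnion fun e => measurable_swap (measurableSet_red _)

theorem measurable_red {α : Type*} [MeasurableSpace α] (f : Fnl) {u v : α → Cant} (hu : Measurable u)
    (hv : Measurable v) : Measurable fun a => Red f (u a) (v a) :=
  measurableSet_setOfPred.1 ((hu.prodMk hv) (measurableSet_red f))

theorem measurable_tr {α : Type*} [MeasurableSpace α] {u v : α → Cant} (hu : Measurable u)
    (hv : Measurable v) : Measurable fun a => TR (u a) (v a) :=
  measurableSet_setOfPred.1 ((hu.prodMk hv) measurableSet_tr)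

/-! ### Cone avoidance -/

theorem ev_avoid {E B : Cant} (h : ¬ TR E B) : ∀ᶠ Z in residual Cant, ¬ TR E (jn B Z) := by
  have hm : ∀ e, MeasurableSet {Z : Cant | Red (fnl e).1 (jn B Z) E} := fun e =>
    measurableSet_setOfPred.2 (measurable_red _
      ((continuous_jn.comp (Continuous.prodMk continuous_const continuous_id)).measurable)
      measurable_const)
  have key : ∀ e, ∀ᶠ Z in residual Cant, ¬ Red (fnl e).1 (jn B Z) E := by
    intro e
    obtain ⟨U, hU, he⟩ := exists_open_ev (hm e)
    have hUe : U = ∅ := by
      by_contra hne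
      obtain ⟨W, hW⟩ := nonempty_iff_ne_empty.2 hne
      obtain ⟨m, hm'⟩ := nhd_cyl hU hW
      apply h
      let l : List Bool := pre W m
      let cand : List Bool → ℕ → List Bool := fun σ t =>
        jnl σ (l ++ (Encodable.decode (α := List Bool) t).getD [])
      let f' : Fnl := fun σ n =>
        ((List.range σ.length).filterMap fun t => fval (fnl e).1 (cand σ t) n).head?
      have hτ : Primrec fun z : (List Bool × ℕ) × ℕ =>
          l ++ (Encodable.decode (α := List Bool) z.2).getD [] :=
        Primrec.list_append.comp (Primrec.const l)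
          (Primrec.option_getD.comp ((Primrec.decode (α := List Bool)).comp Primrec.snd) (Primrec.const []))
      have hg : Primrec fun z : (List Bool × ℕ) × ℕ => fval (fnl e).1 (cand z.1.1 z.2) z.1.2 :=
        (prim_fval (fnl e).2).comp (prim_jnl.comp (Primrec.fst.comp Primrec.fst) hτ)
          (Primrec.snd.comp Primrec.fst)
      have hf' : Primrec₂ f' :=
        (Primrec.list_head?.comp (Primrec.listFilterMap
          (Primrec.list_range.comp (Primrec.list_length.comp Primrec.fst)) hg.to₂)).to₂
      -- any finite extension of `l` extends to a member of the set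
      have hext : ∀ τ : List Bool, ∃ Z : Cant, Red (fnl e).1 (jn B Z) E ∧
          pre Z (l ++ τ).length = l ++ τ := by
        intro τ
        let Z₀ : Cant := fun i => (l ++ τ).getD i false
        have hsub : {Z : Cant | ∀ i < (l ++ τ).length, Z i = Z₀ i} ⊆ U := fun Z hZ => hm' Z fun i hi => by
          have hi' : i < (l ++ τ).length := by simp [l]; omega
          rw [hZ i hi']
          have hil : i < l.length := by simp [l, hi]
          simp [Z₀, List.getD, List.getElem?_append_left hil, l, hi]
        obtain ⟨Z, hZ, hZ'⟩ := exists_mem_open he (isOpen_cyl Z₀ (l ++ τ).length) ⟨Z₀, fun _ _ => rfl⟩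
        refine ⟨Z, hZ'.2 (hsub hZ), List.ext_getElem (by simp) fun i h1 h2 => ?_⟩
        simp only [getElem_pre, hZ i h2, Z₀, List.getD, List.getElem?_eq_getElem h2, Option.getD_some]
      refine tr_of_red hf' (red_of_sound (fun n => ?_) (fun n k v hv => ?_))
      · obtain ⟨Z, hZ, hpre⟩ := hext []
        obtain ⟨K, hK⟩ := fval_some hZ n
        let τ := (pre Z (m + K)).drop m
        have hτ : l ++ τ = pre Z (m + K) := by
          have hl : l = (pre Z (m + K)).take m := by
            rw [take_pre Z (Nat.le_add_right m K)]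
            simpa [l] using hpre.symm
          rw [hl]; exact List.take_append_drop _ _
        let k := max (m + K) (Encodable.encode τ + 1)
        have hc : cand (pre B k) (Encodable.encode τ) = pre (jn B Z) (2 * min k (m + K)) := by
          simp only [cand, Encodable.encodek, Option.getD_some, hτ, jnl_pre]
        have hv : fval (fnl e).1 (cand (pre B k) (Encodable.encode τ)) n = some (E n) := by
          rw [hc]; exact hK _ (by omega)
        cases hv' : f' (pre B k) n with
        | some v => exact ⟨k, v, hv'⟩
        | none =>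
          exfalso
          simp only [f', List.head?_filterMap, List.findSome?_eq_none_iff] at hv'
          have := hv' (Encodable.encode τ) (by simp [k])
          rw [hv] at this
          simp at this
      · simp only [f', List.head?_filterMap] at hv
        obtain ⟨t, -, ht⟩ := List.exists_of_findSome?_eq_some hv
        obtain ⟨Z, hZ, hpre⟩ := hext ((Encodable.decode (α := List Bool) t).getD [])
        simp only [cand] at ht
        rw [← hpre, jnl_pre] at ht
        exact fval_pre hZ _ n ht
    filter_upwards [he] with Z hZ hR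
    have := hZ.1 hR
    simp [hUe] at this
  filter_upwards [eventually_countable_forall.2 key] with Z hZ hT
  obtain ⟨e, he⟩ := tr_iff.1 hT
  exact hZ e he

end Vale.Agent.P327
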