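import Vale.Agent.P327.Category

/-!
Degree automorphisms, functional values as total maps, and the column coding bound.
-/

namespace Vale.Agent.P327

open Topology Filter Set

/-- The value of the `e`-th functional, made total. -/
noncomputable def ap (e : ℕ) (B : Cant) : Cant :=
  fun n => @decide (Hit (fnl e).1 B n true) (Classical.propDecidable _)

/-- The `e`-th functional is total on `B`. -/
def Tot (e : ℕ) (B : Cant) : Prop := ∀ n, Hit (fnl e).1 B n true ∨ Hit (fnl e).1 B n false

theorem red_ap {e : ℕ} {B A : Cant} (h : Red (fnl e).1 B A) : Tot e B ∧ ap e B = A := by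
  refine ⟨fun n => ?_, funext fun n => ?_⟩
  · have := h n
    cases hA : A n <;> rw [hA] at this <;> simp [this]
  · have := h n
    cases hA : A n <;> rw [hA] at this
    · simp only [ap, decide_eq_false_iff_not]
      exact fun h' => by simpa using h'.unique this
    · simp [ap, this]

theorem red_of_tot {e : ℕ} {B : Cant} (h : Tot e B) : Red (fnl e).1 B (ap e B) := by
  intro n
  by_cases ht : Hit (fnl e).1 B n true
  · simpa [ap, ht] using ht
  · simpa [ap, ht] using h n

theorem tr_of_tot {e : ℕ} {B : Cant} (h : Tot e B) : TR (ap e B) B := tr_of_red (fnl e).2 (red_of_tot h)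

theorem exists_ap {A B : Cant} (h : TR A B) : ∃ e, Tot e B ∧ ap e B = A :=
  let ⟨e, he⟩ := tr_iff.1 h
  ⟨e, red_ap he⟩

theorem forall_below {B : Cant} {P : Cant → Prop} :
    (∀ U, TR U B → P U) ↔ ∀ e, Tot e B → P (ap e B) :=
  ⟨fun h e he => h _ (tr_of_tot he), fun h U hU => by
    obtain ⟨e, he, rfl⟩ := exists_ap hU; exact h e he⟩

theorem exists_below {B : Cant} {P : Cant → Prop} :
    (∃ U, TR U B ∧ P U) ↔ ∃ e, Tot e B ∧ P (ap e B) :=
  ⟨fun ⟨U, hU, hP⟩ => by obtain ⟨e, he, rfl⟩ := exists_ap hU; exact ⟨e, he, hP⟩,
    fun ⟨e, he, hP⟩ => ⟨_, tr_of_tot he, hP⟩⟩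

/-! ### Measurability -/

section Meas

variable {α : Type*} [MeasurableSpace α]

theorem measurableSet_hit (f : Fnl) (n : ℕ) (v : Bool) : MeasurableSet {B : Cant | Hit f B n v} := by
  letI : MeasurableSpace (List Bool) := ⊤
  have h : ∀ k (o : Option Bool), MeasurableSet {B : Cant | f (pre B k) n = o} := fun k o => by
    have hd : MeasurableSet {w : List Bool | f w n = o} := MeasurableSet.of_discrete
    exact measurable_pre k hd
  have : {B : Cant | Hit f B n v} = ⋃ k, ({B | f (pre B k) n = some v} ∩
      ⋂ j ∈ Finset.range k, {B | f (pre B j) n = none}) := by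
    ext B; simp [Hit]
  rw [this]
  exact MeasurableSet.iUnion fun k => (h k _).inter (Finset.measurableSet_biInter _ fun j _ => h j _)

theorem measurable_hit (f : Fnl) (n : ℕ) (v : Bool) {u : α → Cant} (hu : Measurable u) :
    Measurable fun a => Hit f (u a) n v :=
  measurableSet_setOfPred.1 (hu (measurableSet_hit f n v))

theorem measurable_ap (e : ℕ) {u : α → Cant} (hu : Measurable u) :
    Measurable fun a => ap e (u a) := by
  refine measurable_pi_iff.2 fun n => measurable_to_bool ?_
  have : (fun a => ap e (u a) n) ⁻¹' {true} = {a | Hit (fnl e).1 (u a) n true} := by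
    ext a; simp [ap]
  rw [this]
  exact hu (measurableSet_hit _ _ _)

theorem measurable_tot (e : ℕ) {u : α → Cant} (hu : Measurable u) :
    Measurable fun a => Tot e (u a) :=
  Measurable.forall fun n => (measurable_hit _ n true hu).or (measurable_hit _ n false hu)

theorem measurable_jn {u v : α → Cant} (hu : Measurable u) (hv : Measurable v) :
    Measurable fun a => jn (u a) (v a) :=
  continuous_jn.measurable.comp (hu.prodMk hv)

end Meas

/-! ### Automorphisms -/

/-- An automorphism of the Turing degrees, through representatives. -/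
structure Aut where
  /-- the map -/
  f : Cant → Cant
  /-- the inverse map -/
  g : Cant → Cant
  le_iff : ∀ A B, TR (f A) (f B) ↔ TR A B
  f_g : ∀ A, TR (f (g A)) A ∧ TR A (f (g A))
  g_f : ∀ A, TR (g (f A)) A ∧ TR A (g (f A))

namespace Aut

variable (P : Aut)

theorem g_le_iff (A B : Cant) : TR (P.g A) (P.g B) ↔ TR A B := by
  rw [← P.le_iff]
  exact ⟨fun h => ((P.f_g A).2.trans h).trans (P.f_g B).1, fun h => ((P.f_g A).1.trans h).trans (P.f_g B).2⟩

/-- The inverse automorphism. -/
def symm : Aut where
  f := P.g
  g := P.f
  le_iff := P.g_le_iff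
  f_g := P.g_f
  g_f := P.f_g

theorem mono {A B : Cant} (h : TR A B) : TR (P.f A) (P.f B) := (P.le_iff A B).2 h

theorem g_le {A B : Cant} (h : TR A (P.f B)) : TR (P.g A) B :=
  ((P.g_le_iff _ _).2 h).trans (P.g_f B).1

theorem f_le {A B : Cant} (h : TR A (P.g B)) : TR (P.f A) B := P.symm.g_le h

theorem le_f {A B : Cant} (h : TR (P.g A) B) : TR A (P.f B) := (P.f_g A).2.trans (P.mono h)

theorem join_le (A B : Cant) : TR (P.f (jn A B)) (jn (P.f A) (P.f B)) :=
  P.f_le (jn_tr (P.symm.le_f (tr_jn_left _ _)) (P.symm.le_f (tr_jn_right _ _)))

end Aut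

/-! ### The coding bound -/

/-- `Y` has the column profile of an image of `X`. -/
def Prof (T Tdel : ℕ → Cant) (TG : Cant) (Dn : ℕ → Cant) (D X Y : Cant) : Prop :=
  (∀ n, ¬ TR (T n) (jn Y (Tdel n))) ∧
    ∀ U, TR U (jn Y TG) → ∃ M, TR M (jn X D) ∧ ∀ n, (TR (T n) U ↔ TR (Dn n) M)

theorem measurable_prof {α : Type*} [MeasurableSpace α] (T Tdel : ℕ → Cant) (TG : Cant)
    (Dn : ℕ → Cant) (D : Cant) {u v : α → Cant} (hu : Measurable u) (hv : Measurable v) :
    Measurable fun a => Prof T Tdel TG Dn D (u a) (v a) := by
  refine Measurable.and (Measurable.forall fun n => (measurable_tr measurable_const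
    (measurable_jn hv measurable_const)).not) ?_
  simp only [forall_below, exists_below]
  refine Measurable.forall fun e => (measurable_tot e (measurable_jn hv measurable_const)).imp
    (Measurable.exists fun e' => (measurable_tot e' (measurable_jn hu measurable_const)).and
      (Measurable.forall fun n => ?_))
  exact (measurable_tr measurable_const (measurable_ap e (measurable_jn hv measurable_const))).iff
    (measurable_tr measurable_const (measurable_ap e' (measurable_jn hu measurable_const)))

/-- Countably many Borel facts about `X` are decided by a prefix of `X` and a fixed table. -/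
theorem prof_bound (G : Cant) (Dn : ℕ → Cant) (D : Cant) :
    ∃ C, ∀ᶠ X in residual Cant, ∀ Y,
      Prof (fun n => col n G) (fun n => del n G) G Dn D X Y → TR Y (jn X C) := by
  classical
  let S : ℕ → ℕ → Set Cant := fun e n => {X | Tot e (jn X D) ∧ TR (Dn n) (ap e (jn X D))}
  have hS : ∀ e n, MeasurableSet (S e n) := fun e n => measurableSet_setOfPred.2
    ((measurable_tot e (measurable_jn measurable_id measurable_const)).and
      (measurable_tr measurable_const (measurable_ap e (measurable_jn measurable_id measurable_const))))
  choose O hO hOe using fun e n => exists_open_ev (hS e n)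
  choose O' hO' hOe' using fun e n => exists_open_ev (hS e n).compl
  let inside : List Bool → Set Cant → Bool := fun l U =>
    decide ({X : Cant | pre X l.length = l} ⊆ U)
  let C : Cant := fun i =>
    let e := i.unpair.1.unpair.1
    let n := i.unpair.1.unpair.2
    let l : List Bool := (Encodable.decode (α := List Bool) i.unpair.2.div2).getD []
    bif i.unpair.2.bodd then inside l (O e n) else inside l (O' e n)
  refine ⟨C, ?_⟩
  filter_upwards [eventually_countable_forall.2 fun e => eventually_countable_forall.2 fun n =>
    (hOe e n).and (hOe' e n)] with X hX Y hY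
  obtain ⟨M, hM, hMn⟩ := hY.2 (sel Y G) (tr_sel Y G)
  obtain ⟨e, he, heM⟩ := exists_ap hM
  have hYn : ∀ n, (Y n = true ↔ X ∈ S e n) := by
    intro n
    have h1 : X ∈ S e n ↔ TR (col n G) (sel Y G) := by
      simp only [S, mem_ofPred_eq, he, heM, true_and, hMn n]
    rw [h1]
    constructor
    · intro h
      simpa [sel_col_true h] using tr_col n (sel Y G)
    · intro h
      by_contra hf
      rw [Bool.not_eq_true] at hf
      rw [sel_col_false hf] at h
      exact hY.1 n (h.trans (tr_sel _ _))
  let idx : ℕ → List Bool → Bool → ℕ := fun n l b =>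
    2 * Nat.pair (Nat.pair e n) (2 * Encodable.encode l + b.toNat) + 1
  let xs : List Bool → List Bool := fun σ => (List.range σ.length.div2).map fun i => σ.getD (2 * i) false
  let g : List Bool → ℕ → ℕ → Option Bool := fun σ n k =>
    bif σ.getD (idx n ((xs σ).take k) true) false then some true
    else bif σ.getD (idx n ((xs σ).take k) false) false then some false else none
  let f : Fnl := fun σ n => ((List.range (σ.length.div2 + 1)).filterMap (g σ n)).head?
  have hf : Primrec₂ f := by
    have hxs : Primrec xs := Primrec.list_map (Primrec.list_range.comp (Primrec.nat_div2.comp Primrec.list_length))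
      ((Primrec.list_getD false).comp Primrec.fst (Primrec.nat_mul.comp (Primrec.const 2) Primrec.snd)).to₂
    have hidx : ∀ b : Bool, Primrec fun z : (List Bool × ℕ) × ℕ =>
        z.1.1.getD (idx z.1.2 ((xs z.1.1).take z.2) b) false := fun b =>
      (Primrec.list_getD false).comp (Primrec.fst.comp Primrec.fst)
        (Primrec.succ.comp (Primrec.nat_mul.comp (Primrec.const 2)
          (Primrec₂.natPair.comp (Primrec₂.natPair.comp (Primrec.const e) (Primrec.snd.comp Primrec.fst))
            (Primrec.nat_add.comp (Primrec.nat_mul.comp (Primrec.const 2)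
              (Primrec.encode.comp (Primrec.list_take.comp Primrec.snd (hxs.comp (Primrec.fst.comp Primrec.fst)))))
              (Primrec.const b.toNat)))))
    have hg : Primrec fun z : (List Bool × ℕ) × ℕ => g z.1.1 z.1.2 z.2 :=
      Primrec.cond (hidx true) (Primrec.const (some true))
        (Primrec.cond (hidx false) (Primrec.const (some false)) (Primrec.const none))
    exact (Primrec.list_head?.comp (Primrec.listFilterMap
      (Primrec.list_range.comp (Primrec.succ.comp (Primrec.nat_div2.comp (Primrec.list_length.comp Primrec.fst))))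
      hg.to₂)).to₂
  have hxs_pre : ∀ N, xs (pre (jn X C) N) = pre X N.div2 := by
    intro N
    simp only [xs, length_pre]
    refine List.map_congr_left fun i hi => ?_
    rw [List.mem_range, Nat.div2_val] at hi
    simp [List.getD, getElem?_pre, show 2 * i < N by omega]
  have hC : ∀ n (l : List Bool), C (Nat.pair (Nat.pair e n) (2 * Encodable.encode l + 1)) = inside l (O e n) ∧
      C (Nat.pair (Nat.pair e n) (2 * Encodable.encode l)) = inside l (O' e n) := by
    intro n l
    constructor
    · simp only [C, Nat.unpair_pair, Nat.div2_val]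
      rw [show (2 * Encodable.encode l + 1) / 2 = Encodable.encode l by omega]
      simp
    · simp only [C, Nat.unpair_pair, Nat.div2_val]
      rw [show (2 * Encodable.encode l) / 2 = Encodable.encode l by omega]
      simp
  have hbit : ∀ N n k b, k ≤ N.div2 →
      (pre (jn X C) N).getD (idx n (pre X k) b) false = true →
      X ∈ (bif b then O e n else O' e n) := by
    intro N n k b hk h
    simp only [idx, List.getD, getElem?_pre] at h
    split_ifs at h with hlt
    · simp only [Option.getD_some, jn_odd] at h
      cases b
      · simp only [Bool.toNat_false, Nat.add_zero, (hC n _).2, inside, decide_eq_true_eq] at h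
        exact h (by simp)
      · simp only [Bool.toNat_true, (hC n _).1, inside, decide_eq_true_eq] at h
        exact h (by simp)
    · simp at h
  refine tr_of_red hf (red_of_sound (fun n => ?_) (fun n N v hv => ?_))
  · have hex : ∃ b : Bool, ∃ k, {Z : Cant | pre Z k = pre X k} ⊆ (bif b then O e n else O' e n) := by
      have key : ∀ {U : Set Cant}, IsOpen U → X ∈ U → ∃ k, {Z : Cant | pre Z k = pre X k} ⊆ U := by
        intro U hU hXU
        obtain ⟨k, hk⟩ := nhd_cyl hU hXU
        exact ⟨k, fun Z hZ => hk Z (pre_eq_iff.1 hZ)⟩
      by_cases hs : X ∈ S e n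
      · exact ⟨true, key (hO e n) ((hX e n).1.1 hs)⟩
      · exact ⟨false, key (hO' e n) ((hX e n).2.1 hs)⟩
    obtain ⟨b, k, hk⟩ := hex
    let N := max (2 * k) (idx n (pre X k) b + 1)
    have hN1 : 2 * k ≤ N := le_max_left _ _
    have hN2 : idx n (pre X k) b < N := Nat.lt_of_succ_le (le_max_right _ _)
    cases hv : f (pre (jn X C) N) n with
    | some v => exact ⟨N, v, hv⟩
    | none =>
      exfalso
      simp only [f, List.head?_filterMap, List.findSome?_eq_none_iff, length_pre] at hv
      have := hv k (by rw [List.mem_range, Nat.div2_val]; omega)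
      simp only [g, hxs_pre, take_pre X (show k ≤ N.div2 by rw [Nat.div2_val]; omega)] at this
      have hb : (pre (jn X C) N).getD (idx n (pre X k) b) false = true := by
        simp only [List.getD, getElem?_pre, hN2, if_true, Option.getD_some]
        cases b
        · simp only [idx, jn_odd, Bool.toNat_false, Nat.add_zero, (hC n _).2, inside, length_pre,
            decide_eq_true_eq]
          exact hk
        · simp only [idx, jn_odd, Bool.toNat_true, (hC n _).1, inside, length_pre, decide_eq_true_eq]
          exact hk
      cases b
      · cases h1 : (pre (jn X C) N).getD (idx n (pre X k) true) false <;>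
          simp only [h1, hb, cond_false, cond_true, reduceCtorEq] at this
      · simp only [hb, cond_true, reduceCtorEq] at this
  · simp only [f, List.head?_filterMap, length_pre] at hv
    obtain ⟨k, hk, hkv⟩ := List.exists_of_findSome?_eq_some hv
    rw [List.mem_range] at hk
    have hk' : k ≤ N.div2 := by omega
    simp only [g, hxs_pre, take_pre X hk'] at hkv
    cases h1 : (pre (jn X C) N).getD (idx n (pre X k) true) false
    · cases h0 : (pre (jn X C) N).getD (idx n (pre X k) false) false
      · simp only [h1, h0, cond_false, reduceCtorEq] at hkv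
      · simp only [h1, h0, cond_false, cond_true, Option.some.injEq] at hkv
        have := (hX e n).2.2 (hbit N n k false hk' h0)
        have hne : Y n ≠ true := fun h => this ((hYn n).1 h)
        simp only [Bool.not_eq_true] at hne
        rw [hne, hkv]
    · simp only [h1, cond_true, Option.some.injEq] at hkv
      rw [(hYn n).2 ((hX e n).1.2 (hbit N n k true hk' h1)), hkv]

end Vale.Agent.P327
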