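import Vale.Agent.P327.Rep

/-!
A Borel-represented automorphism is above the identity on a comeagre set, hence every
automorphism is the identity.
-/

namespace Vale.Agent.P327

open Topology Filter Set

/-- Five reals. -/
abbrev Five : Type := ((Cant × (Cant × Cant)) × Cant) × Cant

/-- The five reals as one real, a homeomorphism. -/
def fiveH : Five ≃ₜ Cant :=
  (((((Homeomorph.refl Cant).prodCongr jnH).trans jnH).prodCongr (Homeomorph.refl Cant)).trans
    jnH).prodCongr (Homeomorph.refl Cant) |>.trans jnH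

/-- The join of five reals. -/
def five (T : Five) : Cant := jn (jn (jn T.1.1.1 (jn T.1.1.2.1 T.1.1.2.2)) T.1.2) T.2

theorem fiveH_apply (T : Five) : fiveH T = five T := rfl

theorem five_le {A R Q Z S B : Cant} (hA : TR A B) (hR : TR R B) (hQ : TR Q B) (hZ : TR Z B)
    (hS : TR S B) : TR (five (((A, (R, Q)), Z), S)) B :=
  jn_tr (jn_tr (jn_tr hA (jn_tr hR hQ)) hZ) hS

theorem le_five (A R Q Z S : Cant) :
    TR A (five (((A, (R, Q)), Z), S)) ∧ TR R (five (((A, (R, Q)), Z), S)) ∧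
    TR Q (five (((A, (R, Q)), Z), S)) ∧ TR Z (five (((A, (R, Q)), Z), S)) ∧
    TR S (five (((A, (R, Q)), Z), S)) :=
  ⟨((tr_jn_left _ _).jl _).jl _, (((tr_jn_left _ _).jr _).jl _).jl _,
    (((tr_jn_right _ _).jr _).jl _).jl _, (tr_jn_right _ _).jl _, tr_jn_right _ _⟩

theorem nhd2 {U : Set (Cant × Cant)} (hU : IsOpen U) {A B : Cant} (h : (A, B) ∈ U) :
    ∃ k, ∀ A' : Cant, (∀ p < k, A' p = A p) → (A', B) ∈ U := by
  obtain ⟨a, b, ha, -, hxa, hyb, hab⟩ := isOpen_prod_iff.1 hU A B h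
  obtain ⟨k, hk⟩ := nhd_cyl ha hxa
  exact ⟨k, fun A' hA' => hab ⟨hk A' hA', hyb⟩⟩

/-- The map `(x, p) ↦ (sh x + p, x + sh x + p)` behind the iteration. -/
def iterH : (Cant × Cant) ≃ₜ (Cant × Cant) where
  toFun q := (bx (sh q.1) q.2, bx q.1 (bx (sh q.1) q.2))
  invFun w := (bx w.2 w.1, bx w.1 (sh (bx w.2 w.1)))
  left_inv := by
    rintro ⟨x, p⟩
    have h : bx (bx x (bx (sh x) p)) (bx (sh x) p) = x := bx_bx _ _
    simp only [h, Prod.mk.injEq, true_and]
    rw [bx_comm (sh x) p, bx_bx]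
  right_inv := by
    rintro ⟨y, q⟩
    have h : bx (sh (bx q y)) (bx y (sh (bx q y))) = y := by rw [bx_comm, bx_bx]
    simp only [h, bx_bx]
  continuous_toFun := by
    have h := continuous_bx.comp ((continuous_sh.comp continuous_fst).prodMk (continuous_snd (X := Cant) (Y := Cant)))
    exact h.prodMk (continuous_bx.comp (continuous_fst.prodMk h))
  continuous_invFun := by
    have h := continuous_bx.comp ((continuous_snd (X := Cant) (Y := Cant)).prodMk continuous_fst)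
    exact h.prodMk (continuous_bx.comp (continuous_fst.prodMk (continuous_sh.comp h)))

/-- `(x, p) ↦ (x + p, p)`. -/
def addFst (q : Cant × Cant) : Cant × Cant := (bx q.1 q.2, q.2)

theorem addFst_invol : Function.Involutive addFst := fun q => by simp [addFst, bx_bx]

theorem continuous_addFst : Continuous addFst := continuous_bx.prodMk continuous_snd

theorem sh_bx_step (R S Z : Cant) (n : ℕ) :
    bx (sh (bx R (colv n Z))) S = bx (bx (sh R) S) (colv (n + 1) Z) := by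
  rw [sh_bx, sh_colv]
  funext p
  simp only [bx]
  cases sh R p <;> cases colv (n + 1) Z p <;> cases S p <;> rfl

theorem bx_step (R Y V : Cant) : bx (bx Y V) (bx R Y) = bx R V := by
  funext p
  simp only [bx]
  cases R p <;> cases Y p <;> cases V p <;> rfl

theorem core (P : Aut) {F : Cant → Cant} (hF : Measurable F)
    (hrep : ∀ᶠ X in residual Cant, TR (F X) (P.f X) ∧ TR (P.f X) (F X)) :
    ∀ᶠ T in residual Five, TR T.1.1.1 (P.f (five T)) := by
  let Gd : Cant → Prop := fun X => TR (F X) (P.f X) ∧ TR (P.f X) (F X)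
  let E₁ : ℕ → Set (Cant × Cant) := fun e =>
    {q | Red (fnl e).1 (jn (F q.1) (F q.2)) (F (bx (sh q.1) q.2))}
  let E₂ : ℕ → Set (Cant × Cant) := fun e =>
    {q | Red (fnl e).1 (jn (F q.1) (F q.2)) (F (bx q.1 q.2))}
  let E₃ : ℕ → Set (Cant × (Cant × Cant)) := fun e =>
    {t | Red (fnl e).1 (jn (F t.1) (jn (F t.2.1) (F t.2.2))) (F (mux t.1 t.2.1 t.2.2))}
  have hJ : Measurable fun q : Cant × Cant => jn (F q.1) (F q.2) :=
    measurable_jn (hF.comp measurable_fst) (hF.comp measurable_snd)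
  have hE₁ : ∀ e, MeasurableSet (E₁ e) := fun e => measurableSet_setOfPred.2 (measurable_red _ hJ
    (hF.comp (continuous_bx.comp ((continuous_sh.comp continuous_fst).prodMk continuous_snd)).measurable))
  have hE₂ : ∀ e, MeasurableSet (E₂ e) := fun e => measurableSet_setOfPred.2 (measurable_red _ hJ
    (hF.comp continuous_bx.measurable))
  have hE₃ : ∀ e, MeasurableSet (E₃ e) := fun e => measurableSet_setOfPred.2 (measurable_red _
    (measurable_jn (hF.comp measurable_fst) (hJ.comp measurable_snd))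
    (hF.comp continuous_mux.measurable))
  choose O₁ hO₁ hOe₁ using fun e => exists_open_ev (hE₁ e)
  choose O₂ hO₂ hOe₂ using fun e => exists_open_ev (hE₂ e)
  choose O₃ hO₃ hOe₃ using fun e => exists_open_ev (hE₃ e)
  let K₁ : Cant × Cant → Prop := fun q =>
    Gd q.1 ∧ Gd q.2 ∧ Gd (bx (sh q.1) q.2) ∧ ∀ e, (q ∈ E₁ e ↔ q ∈ O₁ e)
  let K₂ : Cant × Cant → Prop := fun q =>
    Gd q.1 ∧ Gd q.2 ∧ Gd (bx q.1 q.2) ∧ ∀ e, (q ∈ E₂ e ↔ q ∈ O₂ e)
  let K₃ : Cant × (Cant × Cant) → Prop := fun t =>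
    Gd t.1 ∧ Gd t.2.1 ∧ Gd t.2.2 ∧ Gd (mux t.1 t.2.1 t.2.2) ∧ ∀ e, (t ∈ E₃ e ↔ t ∈ O₃ e)
  have hfst : ∀ᶠ q in residual (Cant × Cant), Gd q.1 := ev_comp continuous_fst isOpenMap_fst hrep
  have hsnd : ∀ᶠ q in residual (Cant × Cant), Gd q.2 := ev_comp continuous_snd isOpenMap_snd hrep
  have hK₁ : ∀ᶠ q in residual (Cant × Cant), K₁ q :=
    hfst.and (hsnd.and ((ev_comp iterH.continuous iterH.isOpenMap hfst).and
      (eventually_countable_forall.2 hOe₁)))
  have hK₂ : ∀ᶠ q in residual (Cant × Cant), K₂ q :=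
    hfst.and (hsnd.and ((ev_invol continuous_addFst addFst_invol hfst).and
      (eventually_countable_forall.2 hOe₂)))
  have hK₃ : ∀ᶠ t in residual (Cant × (Cant × Cant)), K₃ t :=
    (ev_comp continuous_fst isOpenMap_fst hrep).and
      ((ev_comp continuous_snd isOpenMap_snd hfst).and
      ((ev_comp continuous_snd isOpenMap_snd hsnd).and
      ((ev_mux hrep).and (eventually_countable_forall.2 hOe₃))))
  -- pull everything back to five reals
  have toQuad : ∀ {Pr : (Cant × (Cant × Cant)) × Cant → Prop},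
      (∀ᶠ q in residual ((Cant × (Cant × Cant)) × Cant), Pr q) → ∀ᶠ T in residual Five, Pr T.1 :=
    fun h => ev_comp continuous_fst isOpenMap_fst h
  have hR' : ∀ {Pr : (Cant × Cant) × Cant → Prop}, (∀ᶠ q in residual ((Cant × Cant) × Cant), Pr q) →
      ∀ᶠ T in residual Five, Pr ((T.1.1.2.1, T.1.2), T.2) := by
    intro Pr h
    exact ev_comp (f := Prod.map (Prod.map (fun t : Cant × (Cant × Cant) => t.2.1) id) id)
      (((continuous_fst.comp continuous_snd).prodMap continuous_id).prodMap continuous_id)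
      (((isOpenMap_fst.comp isOpenMap_snd).prodMap IsOpenMap.id).prodMap IsOpenMap.id) h
  have hrs : ∀ {Pr : Cant × Cant → Prop}, (∀ᶠ q in residual (Cant × Cant), Pr q) →
      ∀ᶠ q in residual ((Cant × Cant) × Cant), Pr (q.1.1, q.2) := by
    intro Pr h
    exact ev_comp (f := Prod.map (fun r : Cant × Cant => r.1) id) (continuous_fst.prodMap continuous_id)
      (isOpenMap_fst.prodMap IsOpenMap.id) h
  have htr : ∀ (n : ℕ) {Pr : (Cant × Cant) × Cant → Prop}, (∀ᶠ q in residual ((Cant × Cant) × Cant), Pr q) →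
      ∀ᶠ q in residual ((Cant × Cant) × Cant), Pr (trans1 n q.1, q.2) := fun n Pr h =>
    ev_invol ((continuous_trans1 n).prodMap continuous_id)
      (fun q => Prod.ext (trans1_invol n q.1) rfl) h
  have a₁ : ∀ᶠ T in residual Five, K₁ (T.1.1.2.1, T.2) ∧
      ∀ n, K₁ (bx T.1.1.2.1 (colv n T.1.2), T.2) :=
    (hR' (hrs hK₁)).and (eventually_countable_forall.2 fun n => hR' (htr n (hrs hK₁)))
  -- the pairs of the second step, seen through the change of variables
  let ψ : (Cant × Cant) × Cant → (Cant × Cant) × Cant := fun q =>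
    (((iterH (q.1.1, q.2)).1, q.1.2), (iterH (q.1.1, q.2)).2)
  let swp : (Cant × Cant) × Cant ≃ₜ (Cant × Cant) × Cant :=
    { toFun := fun q => ((q.1.1, q.2), q.1.2)
      invFun := fun q => ((q.1.1, q.2), q.1.2)
      left_inv := fun q => rfl
      right_inv := fun q => rfl
      continuous_toFun := by fun_prop
      continuous_invFun := by fun_prop }
  let ψH := (swp.trans (iterH.prodCongr (Homeomorph.refl Cant))).trans swp
  have hψ : ∀ {Pr : (Cant × Cant) × Cant → Prop}, (∀ᶠ q in residual ((Cant × Cant) × Cant), Pr q) →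
      ∀ᶠ q in residual ((Cant × Cant) × Cant), Pr (ψ q) := fun h =>
    ev_comp ψH.continuous ψH.isOpenMap h
  have a₂ : ∀ᶠ T in residual Five,
      K₂ (bx (sh T.1.1.2.1) T.2, bx T.1.1.2.1 (bx (sh T.1.1.2.1) T.2)) ∧
      ∀ n, K₂ (bx (bx (sh T.1.1.2.1) T.2) (colv n T.1.2), bx T.1.1.2.1 (bx (sh T.1.1.2.1) T.2)) :=
    (hR' (hψ (hrs hK₂))).and (eventually_countable_forall.2 fun n => hR' (hψ (htr n (hrs hK₂))))
  -- the triples of the decoding step
  have hq : ∀ᶠ q in residual ((Cant × (Cant × Cant)) × Cant), K₃ q.1 :=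
    ev_comp continuous_fst isOpenMap_fst hK₃
  let sw : (Cant × (Cant × Cant)) × Cant → (Cant × (Cant × Cant)) × Cant := fun q =>
    ((q.1.1, (q.1.2.2, q.1.2.1)), q.2)
  have hsw : ∀ {Pr : (Cant × (Cant × Cant)) × Cant → Prop},
      (∀ᶠ q in residual ((Cant × (Cant × Cant)) × Cant), Pr q) →
      ∀ᶠ q in residual ((Cant × (Cant × Cant)) × Cant), Pr (sw q) := fun h =>
    ev_invol (by fun_prop) (fun q => rfl) h
  have a₃ : ∀ᶠ T in residual Five, K₃ T.1.1 ∧ K₃ (sw T.1).1 ∧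
      (∀ n, K₃ (tz0 n T.1).1) ∧ ∀ n, K₃ (tz1 n (sw T.1)).1 :=
    (toQuad hq).and ((toQuad (hsw hq)).and
      ((eventually_countable_forall.2 fun n => toQuad (ev_invol (continuous_tz0 n) (tz0_invol n) hq)).and
      (eventually_countable_forall.2 fun n =>
        toQuad (hsw (ev_invol (continuous_tz1 n) (tz1_invol n) hq)))))
  have hz : ∀ᶠ q in residual ((Cant × (Cant × Cant)) × Cant),
      q ∉ {q : (Cant × (Cant × Cant)) × Cant | TR q.2 (jn q.1.1 (jn q.1.2.1 q.1.2.2))} := by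
    refine ev_of_sections (measurableSet_setOfPred.2 (measurable_tr measurable_snd ?_))
      (Eventually.of_forall fun t => ?_)
    · exact measurable_jn (measurable_fst.comp measurable_fst)
        (continuous_jn.measurable.comp (measurable_snd.comp measurable_fst))
    · filter_upwards [ev_not_mem_countable (countable_below (jn t.1 (jn t.2.1 t.2.2)))] with Z hZ h
      exact hZ h
  have a₅ : ∀ᶠ T in residual Five, Gd T.1.2 :=
    toQuad (ev_comp (P := Gd) continuous_snd isOpenMap_snd hrep)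
  filter_upwards [a₁, a₂, a₃, toQuad hz, a₅] with T h₁ h₂ h₃ hfree hgZ
  obtain ⟨⟨⟨A, R, Q⟩, Z⟩, S⟩ := T
  dsimp only [tz0, tz1, sw] at h₁ h₂ h₃ hfree hgZ ⊢
  obtain ⟨⟨hgR, hgS, hgY, b₁⟩, t₁⟩ := h₁
  obtain ⟨⟨-, hgq, hgyq, b₂⟩, t₂⟩ := h₂
  obtain ⟨⟨hgA, -, hgQ, hgw, b₃⟩, ⟨-, -, -, hgw', b₃'⟩, t₃, t₃'⟩ := h₃
  set Y := bx (sh R) S with hYdef
  set q := bx R Y with hqdef
  have lift₂ : ∀ {x p w : Cant}, Gd x → Gd p → Gd w → TR w (jn x p) → TR (F w) (jn (F x) (F p)) :=
    fun hx hp hw h => ((hw.1.trans (P.mono h)).trans (P.join_le _ _)).trans (jn_mono hx.2 hp.2)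
  have lift₃ : ∀ {a x p w : Cant}, Gd a → Gd x → Gd p → Gd w → TR w (jn a (jn x p)) →
      TR (F w) (jn (F a) (jn (F x) (F p))) := fun ha hx hp hw h =>
    ((hw.1.trans (P.mono h)).trans ((P.join_le _ _).trans (jn_mono (TR.refl _) (P.join_le _ _)))).trans
      (jn_mono ha.2 (jn_mono hx.2 hp.2))
  obtain ⟨e₁, he₁⟩ := tr_iff.1 (lift₂ hgR hgS hgY ((tr_bx _ _).trans (jn_mono (tr_sh R) (TR.refl S))))
  obtain ⟨e₂, he₂⟩ := tr_iff.1 (lift₂ (x := Y) (p := q) hgY hgq hgyq (tr_bx _ _))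
  obtain ⟨e₃, he₃⟩ := tr_iff.1 (lift₃ hgA hgR hgQ hgw (tr_mux _ _ _))
  obtain ⟨e₄, he₄⟩ := tr_iff.1 (lift₃ hgA hgQ hgR hgw' (tr_mux _ _ _))
  obtain ⟨m₁, hm₁⟩ := nhd2 (hO₁ e₁) ((b₁ e₁).1 he₁)
  obtain ⟨m₂, hm₂⟩ := nhd2 (hO₂ e₂) ((b₂ e₂).1 he₂)
  obtain ⟨m₃, hm₃⟩ := nhd3 (hO₃ e₃) ((b₃ e₃).1 he₃)
  obtain ⟨m₄, hm₄⟩ := nhd3 (hO₃ e₄) ((b₃' e₄).1 he₄)
  set m := max (max m₁ m₂) (max m₃ m₄)
  let x : ℕ → Cant := fun k => bx R (colv (m + k) Z)
  have hxs : ∀ k, Red (fnl e₁).1 (jn (F (x k)) (F S)) (F (bx Y (colv (m + k + 1) Z))) := by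
    intro k
    have := ((t₁ (m + k)).2.2.2 e₁).2 (hm₁ _ fun p hp =>
      bx_colv_eq hp (by omega : m₁ ≤ m + k) rfl)
    simpa [E₁, x, sh_bx_step, hYdef] using this
  have hys : ∀ k, Red (fnl e₂).1 (jn (F (bx Y (colv (m + k + 1) Z))) (F q)) (F (x (k + 1))) := by
    intro k
    have := ((t₂ (m + k + 1)).2.2.2 e₂).2 (hm₂ _ fun p hp =>
      bx_colv_eq hp (by omega : m₂ ≤ m + k + 1) rfl)
    simpa [E₂, x, bx_step, hqdef, Nat.add_assoc] using this
  set O := P.f (five (((A, (R, Q)), Z), S)) with hOdef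
  obtain ⟨lA, lR, lQ, lZ, lS⟩ := le_five A R Q Z S
  have up : ∀ {X : Cant}, Gd X → TR X (five (((A, (R, Q)), Z), S)) → TR (F X) O :=
    fun hX h => hX.1.trans (P.mono h)
  have hx0 : TR (F (x 0)) O :=
    up (t₁ (m + 0)).1 ((tr_bx _ _).trans (jn_tr lR ((tr_colv _ _).trans lZ)))
  have lY : TR Y (five (((A, (R, Q)), Z), S)) := (tr_bx _ _).trans (jn_tr ((tr_sh R).trans lR) lS)
  have hit : US O (fun k => F (x k)) := US.iterate (P := F S) (Q := F q)
    (y := fun k => F (bx Y (colv (m + k + 1) Z))) (fnl e₁).2 (fnl e₂).2 hx0 (up hgS lS)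
    (up hgq ((tr_bx _ _).trans (jn_tr lR lY))) hxs hys
  have hs := ((US.const (up hgA lA)).join (hit.join (US.const (up hgQ lQ)))).map (fnl e₃).2
    (r := fun k => F (mux A (x k) Q)) (fun k => ((t₃ (m + k)).2.2.2.2 e₃).2
      (hm₃ _ _ (fun p hp => bx_colv_eq hp (by omega : m₃ ≤ m + k) rfl) fun p _ => rfl))
  have ht := ((US.const (up hgA lA)).join ((US.const (up hgQ lQ)).join hit)).map (fnl e₄).2
    (r := fun k => F (mux A Q (x k))) (fun k => ((t₃' (m + k)).2.2.2.2 e₄).2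
      (hm₄ _ _ (fun p _ => rfl) fun p hp => bx_colv_eq hp (by omega : m₄ ≤ m + k) rfl))
  have hu := US.const (up hgw ((tr_mux _ _ _).trans (jn_tr lA (jn_tr lR lQ))))
  have hw := US.const (up hgw' ((tr_mux _ _ _).trans (jn_tr lA (jn_tr lQ lR))))
  have noZ : ∀ {W' W : Cant} {n : ℕ}, Gd W' → Gd W → F W' = F W →
      col n W' = bx (col n R) Z → TR W (jn A (jn R Q)) → False := by
    intro W' W n hW' hW heq hcol hle
    have h1 : TR W' W := (P.le_iff _ _).1 (hW'.2.trans (heq ▸ hW.1))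
    refine hfree (bx_cancel_le ?_ ((tr_col n R).trans ((tr_jn_left _ _).jr _)))
    rw [← hcol]
    exact ((tr_col n W').trans h1).trans hle
  refine tr_decode (m := m) hs ht hu hw (fun k hk => ⟨?_, fun heq => ?_⟩) (fun k hk => ⟨?_, fun heq => ?_⟩)
  · show F (mux A (x k) Q) = F (mux A R Q)
    congr 1
    funext p
    by_cases hp : ci p = m + k
    · simp [mux, hp, hk]
    · simp [mux, x, bx, colv, hp]
  · refine noZ (n := m + k) (t₃' (m + k)).2.2.2.1 hgw' heq ?_
      ((tr_mux _ _ _).trans (jn_mono (TR.refl _) (jn_tr (tr_jn_right _ _) (tr_jn_left _ _))))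
    show col (m + k) (mux A Q (x k)) = _
    rw [col_mux, hk, cond_true, col_bx, col_colv]
  · show F (mux A Q (x k)) = F (mux A Q R)
    congr 1
    funext p
    by_cases hp : ci p = m + k
    · simp [mux, hp, hk]
    · simp [mux, x, bx, colv, hp]
  · refine noZ (n := m + k) (t₃ (m + k)).2.2.2.1 hgw heq ?_ (tr_mux _ _ _)
    show col (m + k) (mux A (x k) Q) = _
    rw [col_mux, hk, cond_false, col_bx, col_colv]

theorem ev_above (P : Aut) : ∀ᶠ X in residual Cant, TR X (P.f X) := by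
  obtain ⟨F, hF, hrep⟩ := P.exists_rep
  have h := core P hF hrep
  have hperm : ∀ (f : Five → Five), Continuous f → Function.Involutive f →
      (∀ T, TR (five (f T)) (five T)) →
      ∀ᶠ T in residual Five, TR (f T).1.1.1 (P.f (five T)) := fun f hc hi hle =>
    (ev_invol hc hi h).mono fun T hT => hT.trans (P.mono (hle T))
  have h1 := hperm (fun T => (((T.1.1.2.1, (T.1.1.1, T.1.1.2.2)), T.1.2), T.2)) (by fun_prop)
    (fun T => rfl) (fun T => by
      obtain ⟨⟨⟨a, r, q⟩, z⟩, s⟩ := T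
      obtain ⟨la, lr, lq, lz, ls⟩ := le_five a r q z s
      exact five_le lr la lq lz ls)
  have h2 := hperm (fun T => (((T.1.1.2.2, (T.1.1.2.1, T.1.1.1)), T.1.2), T.2)) (by fun_prop)
    (fun T => rfl) (fun T => by
      obtain ⟨⟨⟨a, r, q⟩, z⟩, s⟩ := T
      obtain ⟨la, lr, lq, lz, ls⟩ := le_five a r q z s
      exact five_le lq lr la lz ls)
  have h3 := hperm (fun T => (((T.1.2, T.1.1.2), T.1.1.1), T.2)) (by fun_prop)
    (fun T => rfl) (fun T => by
      obtain ⟨⟨⟨a, r, q⟩, z⟩, s⟩ := T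
      obtain ⟨la, lr, lq, lz, ls⟩ := le_five a r q z s
      exact five_le lz lr lq la ls)
  have h4 := hperm (fun T => (((T.2, T.1.1.2), T.1.2), T.1.1.1)) (by fun_prop)
    (fun T => rfl) (fun T => by
      obtain ⟨⟨⟨a, r, q⟩, z⟩, s⟩ := T
      obtain ⟨la, lr, lq, lz, ls⟩ := le_five a r q z s
      exact five_le ls lr lq lz la)
  have hall : ∀ᶠ T in residual Five, TR (fiveH T) (P.f (fiveH T)) := by
    filter_upwards [h, h1, h2, h3, h4] with T hA hR hQ hZ hS
    obtain ⟨⟨⟨a, r, q⟩, z⟩, s⟩ := T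
    rw [fiveH_apply]
    exact five_le hA hR hQ hZ hS
  simpa using ev_comp fiveH.symm.continuous fiveH.symm.isOpenMap hall

/-- Every automorphism of the Turing degrees fixes every degree. -/
theorem Aut.le_id (P : Aut) (X : Cant) : TR (P.f X) X := by
  have hfix : ∀ᶠ G in residual Cant, TR (P.f G) G ∧ TR G (P.f G) := by
    filter_upwards [ev_above P, ev_above P.symm] with G h1 h2
    exact ⟨P.f_le h2, h1⟩
  have hc : Continuous fun G : Cant => bx G X :=
    continuous_bx.comp (continuous_id.prodMk continuous_const)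
  have hshift : ∀ᶠ G in residual Cant, TR (P.f (bx G X)) (bx G X) ∧ TR (bx G X) (P.f (bx G X)) :=
    ev_invol hc (fun G => bx_bx G X) hfix
  have hjoin : ∀ᶠ G in residual Cant, TR (P.f X) (jn X G) := by
    filter_upwards [hfix, hshift] with G h1 h2
    have hX : TR X (jn G (bx G X)) := by
      have : bx (bx G X) G = X := by rw [bx_comm G X, bx_bx]
      have h := (tr_bx (bx G X) G).trans
        (jn_tr (tr_jn_right G (bx G X)) (tr_jn_left G (bx G X)))
      rwa [this] at h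
    exact (((P.mono hX).trans (P.join_le _ _)).trans (jn_mono h1.1 h2.1)).trans
      (jn_tr (tr_jn_right _ _) ((tr_bx _ _).trans (jn_tr (tr_jn_right _ _) (tr_jn_left _ _))))
  by_contra hne
  obtain ⟨G, hG, hG'⟩ := exists_ev (hjoin.and (ev_avoid hne))
  exact hG' hG

theorem Aut.eq_id (P : Aut) (X : Cant) : TR (P.f X) X ∧ TR X (P.f X) :=
  ⟨P.le_id X, P.le_f (P.symm.le_id X)⟩

end Vale.Agent.P327
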