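import Vale.Agent.P327.Basic

/-!
Concrete reductions, finite approximations of uniformly computable sequences, and the decoding
lemma.
-/

namespace Vale.Agent.P327

open Primrec

/-! ### Query reductions -/

/-- The functional of a query reduction. -/
def qfun (q : ℕ → List ℕ) (h : ℕ → List Bool → Bool) : Fnl := fun σ n =>
  bif decide ((q n).findIdx (fun i => decide (σ.length ≤ i)) = (q n).length)
    then some (h n ((q n).map fun i => σ.getD i false)) else none

theorem prim_qfun {q : ℕ → List ℕ} (hq : Primrec q) {h : ℕ → List Bool → Bool} (hh : Primrec₂ h) :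
    Primrec₂ (qfun q h) := by
  have hqn : Primrec fun p : List Bool × ℕ => q p.2 := hq.comp Primrec.snd
  have hc : Primrec fun p : List Bool × ℕ =>
      decide ((q p.2).findIdx (fun i => decide (p.1.length ≤ i)) = (q p.2).length) :=
    (Primrec.eq.comp (Primrec.list_findIdx hqn
      ((Primrec.nat_le.comp (Primrec.list_length.comp (Primrec.fst.comp Primrec.fst)) Primrec.snd).decide).to₂)
      (Primrec.list_length.comp hqn)).decide
  exact (Primrec.cond hc (Primrec.option_some.comp (hh.comp Primrec.snd
    (Primrec.list_map hqn ((Primrec.list_getD false).comp (Primrec.fst.comp Primrec.fst) Primrec.snd).to₂)))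
    (Primrec.const none)).to₂

theorem red_qfun {q : ℕ → List ℕ} {h : ℕ → List Bool → Bool} {A B : Cant}
    (hA : ∀ n, A n = h n ((q n).map B)) : Red (qfun q h) B A := by
  refine red_of_sound (fun n => ?_) (fun n k v hv => ?_)
  · refine ⟨((q n).foldr max 0) + 1, h n ((q n).map B), ?_⟩
    have hle : ∀ (l : List ℕ), ∀ i ∈ l, i ≤ l.foldr max 0 := by
      intro l
      induction l with
      | nil => simp
      | cons a l ih =>
        intro i hi
        rcases List.mem_cons.1 hi with rfl | hi
        · simp
        · exact (ih i hi).trans (le_max_right _ _)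
    have hall : ∀ i ∈ q n, i < (q n).foldr max 0 + 1 := fun i hi => by
      have := hle _ i hi; omega
    have h1 : (q n).findIdx (fun i => decide ((pre B ((q n).foldr max 0 + 1)).length ≤ i))
        = (q n).length := by
      rw [List.findIdx_eq_length]
      intro i hi
      simpa using hall i hi
    have h2 : (q n).map (fun i => (pre B ((q n).foldr max 0 + 1)).getD i false) = (q n).map B :=
      List.map_congr_left fun i hi => by
        simp only [List.getD, getElem?_pre, hall i hi, if_true, Option.getD_some]
    simp only [qfun, h1, h2, decide_true, cond_true]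
  · simp only [qfun] at hv
    rw [Bool.cond_eq_ite] at hv
    split_ifs at hv with h'
    simp only [decide_eq_true_eq, length_pre, List.findIdx_eq_length, decide_eq_false_iff_not,
      not_le] at h'
    cases hv
    rw [hA n]
    congr 1
    refine List.map_congr_left fun i hi => ?_
    simp only [List.getD, getElem?_pre, h' i hi, if_true, Option.getD_some]

theorem tr_query {q : ℕ → List ℕ} (hq : Primrec q) {h : ℕ → List Bool → Bool} (hh : Primrec₂ h)
    {A B : Cant} (hA : ∀ n, A n = h n ((q n).map B)) : TR A B :=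
  tr_of_red (prim_qfun hq hh) (red_qfun hA)

theorem tr_query1 {q : ℕ → ℕ} (hq : Primrec q) {A B : Cant} (hA : ∀ n, A n = B (q n)) : TR A B :=
  tr_query (q := fun n => [q n]) (Primrec.list_cons.comp hq (Primrec.const []))
    (h := fun _ l => l.getD 0 false) ((Primrec.list_getD false).comp Primrec.snd (Primrec.const 0)).to₂
    (fun n => by simp [hA])

@[simp] theorem getElem_pre (A : Cant) (k i : ℕ) (h : i < (pre A k).length) : (pre A k)[i] = A i := by
  simp [pre]

/-! ### Join -/

/-- The join of two sets. -/
def jn (A B : Cant) : Cant := fun n => bif n.bodd then B n.div2 else A n.div2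

@[simp] theorem jn_even (A B : Cant) (n : ℕ) : jn A B (2 * n) = A n := by
  simp [jn, Nat.div2_val]

@[simp] theorem jn_odd (A B : Cant) (n : ℕ) : jn A B (2 * n + 1) = B n := by
  simp [jn, Nat.div2_val]

theorem tr_jn_left (A B : Cant) : TR A (jn A B) :=
  tr_query1 (q := fun n => 2 * n) (Primrec.nat_mul.comp (Primrec.const 2) Primrec.id)
    (fun n => by simp)

theorem tr_jn_right (A B : Cant) : TR B (jn A B) :=
  tr_query1 (q := fun n => 2 * n + 1)
    (Primrec.succ.comp (Primrec.nat_mul.comp (Primrec.const 2) Primrec.id)) (fun n => by simp)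

theorem jn_tr {A B C : Cant} (hA : TR A C) (hB : TR B C) : TR (jn A B) C := by
  obtain ⟨f, hf, hfA⟩ := red_of_tr hA
  obtain ⟨g, hg, hgB⟩ := red_of_tr hB
  refine tr_of_red (f := fun σ n => bif n.bodd then g σ n.div2 else f σ n.div2) ?_ fun n => ?_
  · exact (Primrec.cond (Primrec.nat_bodd.comp Primrec.snd)
      (hg.comp Primrec.fst (Primrec.nat_div2.comp Primrec.snd))
      (hf.comp Primrec.fst (Primrec.nat_div2.comp Primrec.snd))).to₂
  · cases hb : n.bodd
    · obtain ⟨k, hk⟩ := hfA n.div2
      exact ⟨k, by simpa [jn, hb] using hk⟩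
    · obtain ⟨k, hk⟩ := hgB n.div2
      exact ⟨k, by simpa [jn, hb] using hk⟩

theorem jn_mono {A A' B B' : Cant} (hA : TR A A') (hB : TR B B') : TR (jn A B) (jn A' B') :=
  jn_tr (hA.trans (tr_jn_left _ _)) (hB.trans (tr_jn_right _ _))

theorem TR.jl {A B : Cant} (C : Cant) (h : TR A B) : TR A (jn B C) := h.trans (tr_jn_left _ _)

theorem TR.jr {A B : Cant} (C : Cant) (h : TR A B) : TR A (jn C B) := h.trans (tr_jn_right _ _)

/-! ### Columns -/

/-- Column index of a position. -/
abbrev ci (p : ℕ) : ℕ := p.unpair.1

/-- Row index of a position. -/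
abbrev ri (p : ℕ) : ℕ := p.unpair.2

@[simp] theorem ci_pair (a b : ℕ) : ci (Nat.pair a b) = a := by simp [ci]

@[simp] theorem ri_pair (a b : ℕ) : ri (Nat.pair a b) = b := by simp [ri]

/-- Bitwise sum. -/
def bx (A B : Cant) : Cant := fun p => xor (A p) (B p)

/-- The real supported on column `n`, equal to `Z` there. -/
def colv (n : ℕ) (Z : Cant) : Cant := fun p => decide (ci p = n) && Z (ri p)

/-- Column `n`. -/
def col (n : ℕ) (G : Cant) : Cant := fun i => G (Nat.pair n i)

/-- Erase column `n`. -/
def del (n : ℕ) (G : Cant) : Cant := fun p => !decide (ci p = n) && G p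

/-- Shift the columns one step. -/
def sh (A : Cant) : Cant := fun p => decide (0 < ci p) && A (Nat.pair (ci p - 1) (ri p))

/-- Keep the columns selected by `Y`. -/
def sel (Y G : Cant) : Cant := fun p => Y (ci p) && G p

/-- Choose, column by column, between two reals. -/
def mux (A Y₀ Y₁ : Cant) : Cant := fun p => bif A (ci p) then Y₁ p else Y₀ p

theorem bx_comm (A B : Cant) : bx A B = bx B A := funext fun p => Bool.xor_comm _ _

theorem bx_bx (A B : Cant) : bx (bx A B) B = A := funext fun p => by
  simp only [bx]; cases A p <;> cases B p <;> rfl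

theorem prim_ci : Primrec ci := Primrec.fst.comp Primrec.unpair

theorem prim_ri : Primrec ri := Primrec.snd.comp Primrec.unpair

theorem tr_col (n : ℕ) (G : Cant) : TR (col n G) G :=
  tr_query1 (Primrec₂.natPair.comp (Primrec.const n) Primrec.id) (fun _ => rfl)

theorem tr_del (n : ℕ) (G : Cant) : TR (del n G) G :=
  tr_query (q := fun p => [p]) (Primrec.list_cons.comp Primrec.id (Primrec.const []))
    (h := fun p l => !decide (ci p = n) && l.getD 0 false)
    (Primrec.and.comp (Primrec.not.comp ((Primrec.eq.comp (prim_ci.comp Primrec.fst) (Primrec.const n)).decide))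
      ((Primrec.list_getD false).comp Primrec.snd (Primrec.const 0))).to₂
    (fun p => by simp [del])

theorem tr_bx (A B : Cant) : TR (bx A B) (jn A B) :=
  tr_query (q := fun p => [2 * p, 2 * p + 1])
    (Primrec.list_cons.comp (Primrec.nat_mul.comp (Primrec.const 2) Primrec.id)
      (Primrec.list_cons.comp (Primrec.succ.comp (Primrec.nat_mul.comp (Primrec.const 2) Primrec.id))
        (Primrec.const [])))
    (h := fun _ l => xor (l.getD 0 false) (l.getD 1 false))
    ((Primrec₂.of_eq (Primrec.dom_finite (fun q : Bool × Bool => xor q.1 q.2)).to₂ (fun _ _ => rfl)).comp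
      ((Primrec.list_getD false).comp Primrec.snd (Primrec.const 0))
      ((Primrec.list_getD false).comp Primrec.snd (Primrec.const 1))).to₂
    (fun p => by simp [bx])

theorem tr_colv (n : ℕ) (Z : Cant) : TR (colv n Z) Z :=
  tr_query (q := fun p => [ri p]) (Primrec.list_cons.comp prim_ri (Primrec.const []))
    (h := fun p l => decide (ci p = n) && l.getD 0 false)
    (Primrec.and.comp ((Primrec.eq.comp (prim_ci.comp Primrec.fst) (Primrec.const n)).decide)
      ((Primrec.list_getD false).comp Primrec.snd (Primrec.const 0))).to₂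
    (fun p => by simp [colv])

theorem tr_sh (A : Cant) : TR (sh A) A :=
  tr_query (q := fun p => [Nat.pair (ci p - 1) (ri p)])
    (Primrec.list_cons.comp (Primrec₂.natPair.comp (Primrec.nat_sub.comp prim_ci (Primrec.const 1)) prim_ri)
      (Primrec.const []))
    (h := fun p l => decide (0 < ci p) && l.getD 0 false)
    (Primrec.and.comp ((Primrec.nat_lt.comp (Primrec.const 0) (prim_ci.comp Primrec.fst)).decide)
      ((Primrec.list_getD false).comp Primrec.snd (Primrec.const 0))).to₂
    (fun p => by simp [sh])

theorem tr_sel (Y G : Cant) : TR (sel Y G) (jn Y G) :=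
  tr_query (q := fun p => [2 * ci p, 2 * p + 1])
    (Primrec.list_cons.comp (Primrec.nat_mul.comp (Primrec.const 2) prim_ci)
      (Primrec.list_cons.comp (Primrec.succ.comp (Primrec.nat_mul.comp (Primrec.const 2) Primrec.id))
        (Primrec.const [])))
    (h := fun _ l => l.getD 0 false && l.getD 1 false)
    (Primrec.and.comp ((Primrec.list_getD false).comp Primrec.snd (Primrec.const 0))
      ((Primrec.list_getD false).comp Primrec.snd (Primrec.const 1))).to₂
    (fun p => by simp [sel])

theorem tr_mux (A Y₀ Y₁ : Cant) : TR (mux A Y₀ Y₁) (jn A (jn Y₀ Y₁)) :=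
  tr_query (q := fun p => [2 * ci p, 2 * (2 * p) + 1, 2 * (2 * p + 1) + 1])
    (Primrec.list_cons.comp (Primrec.nat_mul.comp (Primrec.const 2) prim_ci)
      (Primrec.list_cons.comp
        (Primrec.succ.comp (Primrec.nat_mul.comp (Primrec.const 2)
          (Primrec.nat_mul.comp (Primrec.const 2) Primrec.id)))
        (Primrec.list_cons.comp
          (Primrec.succ.comp (Primrec.nat_mul.comp (Primrec.const 2)
            (Primrec.succ.comp (Primrec.nat_mul.comp (Primrec.const 2) Primrec.id))))
          (Primrec.const []))))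
    (h := fun _ l => bif l.getD 0 false then l.getD 2 false else l.getD 1 false)
    (Primrec.cond ((Primrec.list_getD false).comp Primrec.snd (Primrec.const 0))
      ((Primrec.list_getD false).comp Primrec.snd (Primrec.const 2))
      ((Primrec.list_getD false).comp Primrec.snd (Primrec.const 1))).to₂
    (fun p => by simp [mux])

theorem col_bx (n : ℕ) (A B : Cant) : col n (bx A B) = bx (col n A) (col n B) := rfl

theorem col_colv (n : ℕ) (Z : Cant) : col n (colv n Z) = Z := by
  funext i; simp [col, colv]

theorem col_mux (n : ℕ) (A Y₀ Y₁ : Cant) :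
    col n (mux A Y₀ Y₁) = bif A n then col n Y₁ else col n Y₀ := by
  funext i; cases h : A n <;> simp [col, mux, h]

theorem sh_bx (A B : Cant) : sh (bx A B) = bx (sh A) (sh B) := by
  funext p
  simp only [sh, bx]
  cases decide (0 < ci p) <;> rfl

theorem sh_colv (n : ℕ) (Z : Cant) : sh (colv n Z) = colv (n+1) Z := by
  funext p
  simp only [sh, colv, ci, ri, Nat.unpair_pair]
  by_cases h : p.unpair.1 = n + 1
  · simp [h]
  · by_cases h0 : 0 < p.unpair.1
    · have : ¬ p.unpair.1 - 1 = n := by omega
      simp [h, this]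
    · simp [h, h0]

theorem sel_col_true {Y G : Cant} {n : ℕ} (h : Y n = true) : col n (sel Y G) = col n G := by
  funext i; simp [col, sel, h]

theorem sel_col_false {Y G : Cant} {n : ℕ} (h : Y n = false) : sel Y G = sel Y (del n G) := by
  funext p
  simp only [sel, del]
  by_cases hp : ci p = n
  · simp [hp, h]
  · simp [hp]

/-! ### Finite approximations -/

/-- First value of `f` on the prefixes of `σ`. -/
def fval (f : Fnl) (σ : List Bool) (i : ℕ) : Option Bool :=
  ((List.range (σ.length + 1)).filterMap fun k => f (σ.take k) i).head?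

/-- Longest determined output prefix of length at most `σ.length`. -/
def outp (f : Fnl) (σ : List Bool) : List Bool :=
  (List.range ((List.range σ.length).findIdx fun i => (fval f σ i).isNone)).map
    fun i => (fval f σ i).getD false

theorem prim_fval {f : Fnl} (hf : Primrec₂ f) : Primrec₂ (fval f) :=
  (Primrec.list_head?.comp (Primrec.listFilterMap
    (Primrec.list_range.comp (Primrec.succ.comp (Primrec.list_length.comp Primrec.fst)))
    (hf.comp (Primrec.list_take.comp Primrec.snd (Primrec.fst.comp Primrec.fst))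
      (Primrec.snd.comp Primrec.fst)).to₂)).to₂

theorem prim_outp {f : Fnl} (hf : Primrec₂ f) : Primrec (outp f) :=
  Primrec.list_map
    (Primrec.list_range.comp (Primrec.list_findIdx
      (Primrec.list_range.comp Primrec.list_length)
      ((Primrec.not.comp (Primrec.option_isSome.comp (prim_fval hf))).of_eq
        (g := fun p : List Bool × ℕ => (fval f p.1 p.2).isNone)
        fun p => by show (!(fval f p.1 p.2).isSome) = _; cases fval f p.1 p.2 <;> rfl).to₂))
    (Primrec.option_getD.comp (prim_fval hf) (Primrec.const false)).to₂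

theorem fval_pre {f : Fnl} {B A : Cant} (h : Red f B A) (k i : ℕ) {v : Bool}
    (hv : fval f (pre B k) i = some v) : v = A i := by
  obtain ⟨j, hj, hj'⟩ := h i
  unfold fval at hv
  rw [List.head?_filterMap] at hv
  obtain ⟨l₁, a, l₂, heq, ha, hl₁⟩ := List.findSome?_eq_some_iff.1 hv
  rw [length_pre] at heq
  have hlen : l₁.length < k + 1 := by
    have := congrArg List.length heq; simp at this; omega
  have hget : ∀ q < k + 1, (l₁ ++ a :: l₂)[q]? = some q := fun q hq => by
    rw [← heq]; simp [hq]
  have ha' : a = l₁.length := by simpa using hget l₁.length hlen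
  subst ha'
  rw [take_pre B (by omega)] at ha
  rcases lt_trichotomy j l₁.length with hlt | heq' | hgt
  · have hmem : j ∈ l₁ := by
      have := hget j (by omega)
      rw [List.getElem?_append_left hlt] at this
      exact List.mem_of_getElem? this
    have := hl₁ j hmem
    rw [take_pre B (by omega), hj] at this
    simp at this
  · rw [← heq', hj] at ha; simpa [eq_comm] using ha
  · rw [hj' _ hgt] at ha; simp at ha

theorem fval_some {f : Fnl} {B A : Cant} (h : Red f B A) (i : ℕ) :
    ∃ K, ∀ k ≥ K, fval f (pre B k) i = some (A i) := by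
  obtain ⟨j, hj, -⟩ := h i
  refine ⟨j, fun k hk => ?_⟩
  cases hv : fval f (pre B k) i with
  | some v => rw [fval_pre h k i hv]
  | none =>
    exfalso
    unfold fval at hv
    rw [List.head?_filterMap, List.findSome?_eq_none_iff] at hv
    have := hv j (by simp; omega)
    rw [take_pre B hk, hj] at this
    simp at this

theorem outp_pre {f : Fnl} {B A : Cant} (h : Red f B A) (k : ℕ) :
    ∃ j, outp f (pre B k) = pre A j := by
  refine ⟨_, List.map_congr_left fun i hi => ?_⟩
  rw [List.mem_range] at hi
  have := List.not_of_lt_findIdx hi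
  simp only [List.getElem_range] at this
  cases hv : fval f (pre B k) i with
  | some v => simp [fval_pre h k i hv]
  | none => simp [hv] at this

theorem outp_len {f : Fnl} {B A : Cant} (h : Red f B A) (N : ℕ) :
    ∃ K, ∀ k ≥ K, N ≤ (outp f (pre B k)).length := by
  choose K hK using fun i => fval_some h i
  refine ⟨max N ((Finset.range N).sup K), fun k hk => ?_⟩
  simp only [outp, List.length_map, List.length_range, length_pre]
  by_contra hlt
  rw [not_le] at hlt
  set q := (List.range k).findIdx (fun i => (fval f (pre B k) i).isNone) with hq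
  have hqk : q < (List.range k).length := by simp; omega
  have := List.findIdx_getElem (w := hqk)
  simp only [← hq, List.getElem_range] at this
  have hKq : K q ≤ (Finset.range N).sup K := Finset.le_sup (Finset.mem_range.2 hlt)
  rw [hK q k (by omega)] at this
  simp at this

/-- `L` approximates each `x n` uniformly from the oracle `O`. -/
def UAp (O : Cant) (x : ℕ → Cant) (L : List Bool → ℕ → List Bool) : Prop :=
  ∀ n, (∀ k, ∃ j, L (pre O k) n = pre (x n) j) ∧ ∀ N, ∃ K, ∀ k ≥ K, N ≤ (L (pre O k) n).length

/-- `x` is uniformly computable from `O`. -/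
def US (O : Cant) (x : ℕ → Cant) : Prop := ∃ L, Primrec₂ L ∧ UAp O x L

theorem ap_map {f : Fnl} {O : Cant} {n : ℕ} {x r : ℕ → Cant} {L : List Bool → ℕ → List Bool}
    (hL : UAp O x L) (h : Red f (x n) (r n)) :
    (∀ k, ∃ j, outp f (L (pre O k) n) = pre (r n) j) ∧
      ∀ N, ∃ K, ∀ k ≥ K, N ≤ (outp f (L (pre O k) n)).length := by
  constructor
  · intro k
    obtain ⟨j, hj⟩ := (hL n).1 k
    rw [hj]; exact outp_pre h j
  · intro N
    obtain ⟨K, hK⟩ := outp_len h N
    obtain ⟨K', hK'⟩ := (hL n).2 K
    refine ⟨K', fun k hk => ?_⟩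
    obtain ⟨j, hj⟩ := (hL n).1 k
    have := hK' k hk
    rw [hj] at this ⊢
    exact hK j (by simpa using this)

theorem US.const {O y : Cant} (h : TR y O) : US O (fun _ => y) := by
  obtain ⟨f, hf, hr⟩ := red_of_tr h
  exact ⟨fun σ _ => outp f σ, ((prim_outp hf).comp Primrec.fst).to₂,
    fun _ => ⟨outp_pre hr, outp_len hr⟩⟩

theorem US.map {O : Cant} {x r : ℕ → Cant} {f : Fnl} (hf : Primrec₂ f) (hx : US O x)
    (h : ∀ n, Red f (x n) (r n)) : US O r := by
  obtain ⟨L, hL, hap⟩ := hx
  exact ⟨fun σ n => outp f (L σ n), ((prim_outp hf).comp hL).to₂, fun n => ap_map hap (h n)⟩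

/-- Join of two finite approximations. -/
def jnl (s t : List Bool) : List Bool :=
  (List.range (2 * min s.length t.length)).map fun i =>
    bif i.bodd then t.getD i.div2 false else s.getD i.div2 false

theorem prim_jnl : Primrec₂ jnl :=
  (Primrec.list_map
    (Primrec.list_range.comp (Primrec.nat_mul.comp (Primrec.const 2)
      (Primrec.nat_min.comp (Primrec.list_length.comp Primrec.fst) (Primrec.list_length.comp Primrec.snd))))
    (Primrec.cond (Primrec.nat_bodd.comp Primrec.snd)
      ((Primrec.list_getD false).comp (Primrec.snd.comp Primrec.fst) (Primrec.nat_div2.comp Primrec.snd))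
      ((Primrec.list_getD false).comp (Primrec.fst.comp Primrec.fst) (Primrec.nat_div2.comp Primrec.snd))).to₂).to₂

theorem jnl_pre (A B : Cant) (i j : ℕ) : jnl (pre A i) (pre B j) = pre (jn A B) (2 * min i j) := by
  rw [jnl, length_pre, length_pre]
  refine List.map_congr_left fun p hp => ?_
  rw [List.mem_range] at hp
  have : p.div2 < i ∧ p.div2 < j := by rw [Nat.div2_val]; omega
  simp [jn, List.getD, getElem?_pre, this.1, this.2]

@[simp] theorem length_jnl (s t : List Bool) : (jnl s t).length = 2 * min s.length t.length := by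
  simp [jnl]

theorem ap_join {O : Cant} {n : ℕ} {x y : ℕ → Cant} {L M : List Bool → ℕ → List Bool}
    (hL : UAp O x L) (hM : UAp O y M) :
    (∀ k, ∃ j, jnl (L (pre O k) n) (M (pre O k) n) = pre (jn (x n) (y n)) j) ∧
      ∀ N, ∃ K, ∀ k ≥ K, N ≤ (jnl (L (pre O k) n) (M (pre O k) n)).length := by
  constructor
  · intro k
    obtain ⟨i, hi⟩ := (hL n).1 k
    obtain ⟨j, hj⟩ := (hM n).1 k
    exact ⟨_, by rw [hi, hj, jnl_pre]⟩
  · intro N
    obtain ⟨K, hK⟩ := (hL n).2 N
    obtain ⟨K', hK'⟩ := (hM n).2 N
    refine ⟨max K K', fun k hk => ?_⟩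
    have := hK k (le_trans (le_max_left _ _) hk)
    have := hK' k (le_trans (le_max_right _ _) hk)
    simp only [length_jnl]; omega

theorem US.join {O : Cant} {x y : ℕ → Cant} (hx : US O x) (hy : US O y) :
    US O (fun n => jn (x n) (y n)) := by
  obtain ⟨L, hL, hapL⟩ := hx
  obtain ⟨M, hM, hapM⟩ := hy
  exact ⟨fun σ n => jnl (L σ n) (M σ n), (prim_jnl.comp hL hM).to₂, fun n => ap_join hapL hapM⟩

attribute [local irreducible] outp jnl fval

/-- One step of the two-stage iteration on approximations. -/
def stepL (f g : Fnl) (p q x : List Bool) : List Bool := outp g (jnl (outp f (jnl x p)) q)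

theorem ap_step {O P Q x y z : Cant} {f g : Fnl} {lx lp lq : List Bool → List Bool}
    (hx : UAp O (fun _ => x) (fun σ _ => lx σ)) (hp : UAp O (fun _ => P) (fun σ _ => lp σ))
    (hq : UAp O (fun _ => Q) (fun σ _ => lq σ)) (hf : Red f (jn x P) y) (hg : Red g (jn y Q) z) :
    UAp O (fun _ => z) (fun σ _ => stepL f g (lp σ) (lq σ) (lx σ)) := by
  have h1 : UAp O (fun _ => jn x P) (fun σ _ => jnl (lx σ) (lp σ)) := fun _ => ap_join (n := 0) hx hp
  have h2 : UAp O (fun _ => y) (fun σ _ => outp f (jnl (lx σ) (lp σ))) := fun _ =>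
    ap_map (n := 0) (r := fun _ => y) h1 hf
  have h3 : UAp O (fun _ => jn y Q) (fun σ _ => jnl (outp f (jnl (lx σ) (lp σ))) (lq σ)) :=
    fun _ => ap_join (n := 0) h2 hq
  exact fun _ => ap_map (n := 0) (r := fun _ => z) h3 hg

theorem US.iterate {O P Q : Cant} {x y : ℕ → Cant} {f g : Fnl} (hf : Primrec₂ f) (hg : Primrec₂ g)
    (h0 : TR (x 0) O) (hP : TR P O) (hQ : TR Q O) (hy : ∀ n, Red f (jn (x n) P) (y n))
    (hx : ∀ n, Red g (jn (y n) Q) (x (n+1))) : US O x := by
  obtain ⟨f₀, hf₀, hr₀⟩ := red_of_tr h0
  obtain ⟨fP, hfP, hrP⟩ := red_of_tr hP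
  obtain ⟨fQ, hfQ, hrQ⟩ := red_of_tr hQ
  let L : List Bool → ℕ → List Bool := fun σ n =>
    Nat.rec (outp f₀ σ) (fun _ ih => stepL f g (outp fP σ) (outp fQ σ) ih) n
  have hS : Primrec fun z : (List Bool × List Bool) × List Bool => stepL f g z.1.1 z.1.2 z.2 :=
    (prim_outp hg).comp (prim_jnl.comp
      ((prim_outp hf).comp (prim_jnl.comp Primrec.snd (Primrec.fst.comp Primrec.fst)))
      (Primrec.snd.comp Primrec.fst))
  have hL : Primrec₂ L := by
    refine (Primrec.nat_rec' Primrec.snd ((prim_outp hf₀).comp Primrec.fst)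
      (h := fun q w => stepL f g (outp fP q.1) (outp fQ q.1) w.2) ?_).to₂
    exact (hS.comp (Primrec.pair
      (Primrec.pair ((prim_outp hfP).comp (Primrec.fst.comp Primrec.fst))
        ((prim_outp hfQ).comp (Primrec.fst.comp Primrec.fst)))
      (Primrec.snd.comp Primrec.snd))).to₂
  refine ⟨L, hL, fun n => ?_⟩
  induction n with
  | zero => exact ⟨outp_pre hr₀, outp_len hr₀⟩
  | succ n ih =>
    exact ap_step (z := x (n+1)) (lx := fun σ => L σ n) (fun _ => ih)
      (fun _ => ⟨outp_pre hrP, outp_len hrP⟩) (fun _ => ⟨outp_pre hrQ, outp_len hrQ⟩) (hy n) (hx n) 0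

theorem US.query {O : Cant} {x r : ℕ → Cant} {q : ℕ → List ℕ} (hq : Primrec q)
    {h : ℕ → List Bool → Bool} (hh : Primrec₂ h) (hx : US O x)
    (hr : ∀ n p, r n p = h p ((q p).map (x n))) : US O r :=
  hx.map (prim_qfun hq hh) fun n => red_qfun (hr n)

/-- The singleton `{n}`. -/
def sgl (n : ℕ) : Cant := fun p => decide (p = n)

theorem US.sgl (O : Cant) : US O Vale.Agent.P327.sgl := by
  refine ⟨fun σ n => (List.range σ.length).map fun p => decide (p = n), ?_, fun n => ⟨?_, ?_⟩⟩
  · exact (Primrec.list_map (Primrec.list_range.comp (Primrec.list_length.comp Primrec.fst))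
      ((Primrec.eq.comp Primrec.snd (Primrec.snd.comp Primrec.fst)).decide).to₂).to₂
  · exact fun k => ⟨k, by simp [pre, Vale.Agent.P327.sgl]⟩
  · exact fun N => ⟨N, fun k hk => by simpa using hk⟩

/-- The sequence of translates of `R` by `Z` placed in the columns `m, m+1, ...`. -/
theorem US.transl {O R Z : Cant} (m : ℕ) (hR : TR R O) (hZ : TR Z O) :
    US O (fun n => bx R (colv (m + n) Z)) := by
  refine US.query (q := fun p => [2 * (ci p - m), 2 * (2 * p) + 1, 2 * (2 * ri p + 1) + 1])
    (Primrec.list_cons.comp
      (Primrec.nat_mul.comp (Primrec.const 2) (Primrec.nat_sub.comp prim_ci (Primrec.const m)))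
      (Primrec.list_cons.comp
        (Primrec.succ.comp (Primrec.nat_mul.comp (Primrec.const 2)
          (Primrec.nat_mul.comp (Primrec.const 2) Primrec.id)))
        (Primrec.list_cons.comp
          (Primrec.succ.comp (Primrec.nat_mul.comp (Primrec.const 2)
            (Primrec.succ.comp (Primrec.nat_mul.comp (Primrec.const 2) prim_ri))))
          (Primrec.const []))))
    (h := fun p l => bif (decide (m ≤ ci p) && l.getD 0 false) && l.getD 2 false
      then !(l.getD 1 false) else l.getD 1 false) ?_
    ((US.sgl O).join ((US.const hR).join (US.const hZ))) ?_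
  · exact (Primrec.cond (Primrec.and.comp (Primrec.and.comp
      ((Primrec.nat_le.comp (Primrec.const m) (prim_ci.comp Primrec.fst)).decide)
      ((Primrec.list_getD false).comp Primrec.snd (Primrec.const 0)))
      ((Primrec.list_getD false).comp Primrec.snd (Primrec.const 2)))
      (Primrec.not.comp ((Primrec.list_getD false).comp Primrec.snd (Primrec.const 1)))
      ((Primrec.list_getD false).comp Primrec.snd (Primrec.const 1))).to₂
  · intro n p
    simp only [List.map_cons, List.map_nil, jn_even, jn_odd, List.getD, List.getElem?_cons_zero,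
      List.getElem?_cons_succ, Option.getD_some, Vale.Agent.P327.sgl, bx, colv]
    by_cases h : ci p = m + n
    · simp [h]; cases R p <;> cases Z (ri p) <;> rfl
    · by_cases hm : m ≤ ci p
      · have : ¬ ci p - m = n := by omega
        simp [h, this]
      · simp [h, hm]

/-- Two finite approximations visibly disagree. -/
def dis (s t : List Bool) : Bool :=
  !decide (s.take (min s.length t.length) = t.take (min s.length t.length))

theorem prim_dis : Primrec₂ dis :=
  (Primrec.not.comp (Primrec.eq.comp
    (Primrec.list_take.comp (Primrec.nat_min.comp (Primrec.list_length.comp Primrec.fst)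
      (Primrec.list_length.comp Primrec.snd)) Primrec.fst)
    (Primrec.list_take.comp (Primrec.nat_min.comp (Primrec.list_length.comp Primrec.fst)
      (Primrec.list_length.comp Primrec.snd)) Primrec.snd)).decide).to₂

theorem dis_pre (A B : Cant) (i j : ℕ) :
    dis (pre A i) (pre B j) = true ↔ ∃ p < min i j, A p ≠ B p := by
  simp only [dis, length_pre, Bool.not_eq_true', decide_eq_false_iff_not,
    take_pre A (min_le_left i j), take_pre B (min_le_right i j), pre_eq_iff]
  push Not
  rfl

theorem tr_tail {A O : Cant} (m : ℕ) (h : TR (fun k => A (m + k)) O) : TR A O := by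
  refine TR.trans ?_ h
  let tb : List Bool := pre A m
  refine tr_query (q := fun n => [n - m])
    (Primrec.list_cons.comp (Primrec.nat_sub.comp Primrec.id (Primrec.const m)) (Primrec.const []))
    (h := fun n l => bif decide (n < m) then tb.getD n false else l.getD 0 false) ?_ fun n => ?_
  · exact (Primrec.cond ((Primrec.nat_lt.comp Primrec.fst (Primrec.const m)).decide)
      ((Primrec.list_getD false).comp (Primrec.const tb) Primrec.fst)
      ((Primrec.list_getD false).comp Primrec.snd (Primrec.const 0))).to₂
  · by_cases hn : n < m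
    · simp [hn, tb, List.getD, getElem?_pre]
    · simp [hn, Nat.add_sub_cancel' (not_lt.1 hn)]

/-- The decoding lemma: two families of streams, compared with fixed streams, decide `A`. -/
theorem tr_decode {O A : Cant} {m : ℕ} {s t u w : ℕ → Cant}
    (hs : US O s) (ht : US O t) (hu : US O u) (hw : US O w)
    (h₁ : ∀ k, A (m + k) = true → s k = u k ∧ t k ≠ w k)
    (h₀ : ∀ k, A (m + k) = false → t k = w k ∧ s k ≠ u k) : TR A O := by
  apply tr_tail m
  obtain ⟨Ls, hLs, as⟩ := hs
  obtain ⟨Lt, hLt, at'⟩ := ht
  obtain ⟨Lu, hLu, au⟩ := hu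
  obtain ⟨Lw, hLw, aw⟩ := hw
  let f : Fnl := fun σ k => bif dis (Lt σ k) (Lw σ k) then some true
    else bif dis (Ls σ k) (Lu σ k) then some false else none
  have hf : Primrec₂ f :=
    (Primrec.cond (prim_dis.comp hLt hLw) (Primrec.const (some true))
      (Primrec.cond (prim_dis.comp hLs hLu) (Primrec.const (some false)) (Primrec.const none))).to₂
  have key : ∀ {x y : ℕ → Cant} {L M}, UAp O x L → UAp O y M → ∀ k,
      (∀ j, dis (L (pre O j) k) (M (pre O j) k) = true → x k ≠ y k) ∧
      (x k ≠ y k → ∃ j, dis (L (pre O j) k) (M (pre O j) k) = true) := by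
    intro x y L M hL hM k
    constructor
    · intro j h e
      obtain ⟨a, ha⟩ := (hL k).1 j
      obtain ⟨b, hb⟩ := (hM k).1 j
      rw [ha, hb, dis_pre] at h
      obtain ⟨p, -, hp⟩ := h
      exact hp (by rw [e])
    · intro hne
      obtain ⟨p, hp⟩ := Function.ne_iff.1 hne
      obtain ⟨K, hK⟩ := (hL k).2 (p+1)
      obtain ⟨K', hK'⟩ := (hM k).2 (p+1)
      obtain ⟨a, ha⟩ := (hL k).1 (max K K')
      obtain ⟨b, hb⟩ := (hM k).1 (max K K')
      have h1 := hK _ (le_max_left K K')
      have h2 := hK' _ (le_max_right K K')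
      rw [ha] at h1
      rw [hb] at h2
      simp only [length_pre] at h1 h2
      exact ⟨max K K', by rw [ha, hb, dis_pre]; exact ⟨p, by omega, hp⟩⟩
  refine tr_of_red hf (red_of_sound (fun k => ?_) (fun k j v hv => ?_))
  · cases hA : A (m + k)
    · obtain ⟨j, hj⟩ := (key as au k).2 (h₀ k hA).2
      refine ⟨j, false, ?_⟩
      cases hd : dis (Lt (pre O j) k) (Lw (pre O j) k)
      · simp [f, hd, hj]
      · exact absurd (h₀ k hA).1 ((key at' aw k).1 j hd)
    · obtain ⟨j, hj⟩ := (key at' aw k).2 (h₁ k hA).2
      exact ⟨j, true, by simp [f, hj]⟩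
  · cases hA : A (m + k)
    · cases hd : dis (Lt (pre O j) k) (Lw (pre O j) k)
      · simp only [f, hd, cond_false] at hv
        cases hd2 : dis (Ls (pre O j) k) (Lu (pre O j) k) <;> simp [hd2] at hv
        simp [hv]
      · exact absurd (h₀ k hA).1 ((key at' aw k).1 j hd)
    · cases hd : dis (Lt (pre O j) k) (Lw (pre O j) k)
      · simp only [f, hd, cond_false] at hv
        cases hd2 : dis (Ls (pre O j) k) (Lu (pre O j) k) <;> simp [hd2] at hv
        exact absurd (h₁ k hA).1 ((key as au k).1 j hd2)
      · simpa [f, hd, eq_comm] using hv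

end Vale.Agent.P327
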