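import Vale.Agent.P327.Stab

/-!
Every automorphism agrees, on a comeagre set, with a Borel map.
-/

namespace Vale.Agent.P327

open Topology Filter Set

theorem ev_avoid' {E B : Cant} (h : ¬ TR E B) : ∀ᶠ X in residual Cant, ¬ TR E (jn X B) :=
  (ev_avoid h).mono fun X hX hE => hX (hE.trans (jn_tr (tr_jn_right _ _) (tr_jn_left _ _)))

namespace Aut

variable (P : Aut)

/-- Profiles against the images of the columns of `G`. -/
def IProf (G X Y : Cant) : Prop :=
  Prof (fun n => P.f (col n G)) (fun n => P.f (del n G)) (P.f G) (fun n => col n G) G X Y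

theorem prof_of_iprof {G X Y : Cant} (h : P.IProf G X Y) :
    Prof (fun n => col n G) (fun n => del n G) G (fun n => col n G) G X (P.g Y) := by
  refine ⟨fun n hn => h.1 n ?_, fun U hU => ?_⟩
  · exact ((P.mono hn).trans (P.join_le _ _)).trans (jn_mono (P.f_g Y).1 (TR.refl _))
  · obtain ⟨M, hM, hMn⟩ := h.2 (P.f U)
      (((P.mono hU).trans (P.join_le _ _)).trans (jn_mono (P.f_g Y).1 (TR.refl _)))
    exact ⟨M, hM, fun n => (P.le_iff _ _).symm.trans (hMn n)⟩

theorem iprof_self {G X : Cant} (h : ∀ n, ¬ TR (col n G) (jn X (del n G))) : P.IProf G X (P.f X) := by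
  refine ⟨fun n hn => h n ((P.le_iff _ _).1 ?_), fun U hU => ⟨P.g U, ?_, fun n => ?_⟩⟩
  · exact hn.trans (jn_tr (P.mono (tr_jn_left _ _)) (P.mono (tr_jn_right _ _)))
  · exact P.g_le (hU.trans (jn_tr (P.mono (tr_jn_left _ _)) (P.mono (tr_jn_right _ _))))
  · exact ⟨fun h1 => (P.g_f _).2.trans ((P.g_le_iff _ _).2 h1),
      fun h1 => (P.mono h1).trans (P.f_g U).1⟩

theorem prof_image {G X : Cant} (h : ∀ n, ¬ TR (P.g (col n G)) (jn X (P.g (del n G)))) :
    Prof (fun n => col n G) (fun n => del n G) G (fun n => P.g (col n G)) (P.g G) X (P.f X) := by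
  refine ⟨fun n hn => h n ?_, fun U hU => ⟨P.g U, ?_, fun n => (P.g_le_iff _ _).symm⟩⟩
  · exact (((P.g_le_iff _ _).2 hn).trans (P.symm.join_le _ _)).trans (jn_mono (P.g_f X).1 (TR.refl _))
  · exact (((P.g_le_iff _ _).2 hU).trans (P.symm.join_le _ _)).trans (jn_mono (P.g_f X).1 (TR.refl _))

/-- The acceptance predicate for a candidate image. -/
def Acc (G R₀ R₁ X Y : Cant) : Prop :=
  P.IProf G X Y ∧ ∃ V, TR V (jn Y (P.f (jn R₀ R₁))) ∧ P.IProf G (mux X R₀ R₁) V ∧
    ∀ n, (X n = true → TR (P.f (col n R₁)) V) ∧ (X n = false → TR (P.f (col n R₀)) V)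

theorem measurable_acc {α : Type*} [MeasurableSpace α] (G R₀ R₁ : Cant) {u v : α → Cant}
    (hu : Measurable u) (hv : Measurable v) : Measurable fun a => P.Acc G R₀ R₁ (u a) (v a) := by
  refine (measurable_prof _ _ _ _ _ hu hv).and ?_
  simp only [exists_below]
  have hJ := measurable_jn hv (measurable_const (a := P.f (jn R₀ R₁)))
  have hM : Measurable fun a => mux (u a) R₀ R₁ :=
    continuous_mux.measurable.comp (hu.prodMk (measurable_const (a := ((R₀, R₁) : Cant × Cant))))
  refine Measurable.exists fun e => (measurable_tot e hJ).and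
    ((measurable_prof _ _ _ _ _ hM (measurable_ap e hJ)).and (Measurable.forall fun n => ?_))
  have hb : ∀ b : Bool, Measurable fun a => u a n = b := fun b =>
    measurableSet_setOfPred.1 (((measurable_pi_apply n).comp hu) (MeasurableSet.of_discrete (s := {b})))
  exact ((hb true).imp (measurable_tr measurable_const (measurable_ap e hJ))).and
    ((hb false).imp (measurable_tr measurable_const (measurable_ap e hJ)))

theorem exists_rep : ∃ F : Cant → Cant, Measurable F ∧
    ∀ᶠ X in residual Cant, TR (F X) (P.f X) ∧ TR (P.f X) (F X) := by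
  classical
  obtain ⟨G, hG⟩ := exists_ev ev_indep
  obtain ⟨C₁, hC₁⟩ := prof_bound G (fun n => col n G) G
  obtain ⟨C₂, hC₂⟩ := prof_bound G (fun n => P.g (col n G)) (P.g G)
  have hind₁ : ∀ᶠ X in residual Cant, ∀ n, ¬ TR (col n G) (jn X (del n G)) :=
    eventually_countable_forall.2 fun n => ev_avoid' (hG n)
  have hind₂ : ∀ᶠ X in residual Cant, ∀ n, ¬ TR (P.g (col n G)) (jn X (P.g (del n G))) :=
    eventually_countable_forall.2 fun n => ev_avoid' fun h => hG n ((P.g_le_iff _ _).1 h)
  have hgood := hC₁.and hind₁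
  obtain ⟨⟨R₀, R₁⟩, hR⟩ := exists_ev (ev_sections' ((stab C₁).and (ev_mux hgood)))
  let Cand : ℕ → Cant → Prop := fun e X => Tot e (jn X C₂) ∧ P.Acc G R₀ R₁ X (ap e (jn X C₂))
  let Best : ℕ → Cant → Prop := fun e X =>
    Cand e X ∧ ∀ e', Cand e' X → TR (ap e (jn X C₂)) (ap e' (jn X C₂))
  let Fst : ℕ → Cant → Prop := fun e X => Best e X ∧ ∀ e', e' < e → ¬ Best e' X
  let F : Cant → Cant := fun X p => decide (∃ e, Fst e X ∧ ap e (jn X C₂) p = true)
  have hJ : Measurable fun X : Cant => jn X C₂ := measurable_jn measurable_id measurable_const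
  have hCand : ∀ e, Measurable (Cand e) := fun e =>
    (measurable_tot e hJ).and (P.measurable_acc G R₀ R₁ measurable_id (measurable_ap e hJ))
  have hBest : ∀ e, Measurable (Best e) := fun e => (hCand e).and (Measurable.forall fun e' =>
    (hCand e').imp (measurable_tr (measurable_ap e hJ) (measurable_ap e' hJ)))
  have hFst : ∀ e, Measurable (Fst e) := fun e => (hBest e).and
    (Measurable.forall fun e' => Measurable.forall fun _ => (hBest e').not)
  refine ⟨F, measurable_pi_iff.2 fun p => measurable_to_bool ?_, ?_⟩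
  · have : (fun X => F X p) ⁻¹' {true} = {X | ∃ e, Fst e X ∧ ap e (jn X C₂) p = true} := by
      ext X; simp [F]
    rw [this]
    exact measurableSet_setOfPred.2 (Measurable.exists fun e => (hFst e).and
      (measurableSet_setOfPred.1 (((measurable_pi_apply p).comp (measurable_ap e hJ))
        (MeasurableSet.of_discrete (s := {true})))))
  filter_upwards [hR, hgood, hC₂, hind₁, hind₂] with X hX hX₁ hX₂ hXi hXj
  obtain ⟨hstab, hmux⟩ := hX
  -- every accepted candidate is above the image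
  have habove : ∀ Y, P.Acc G R₀ R₁ X Y → TR (P.f X) Y := by
    rintro Y ⟨hY, V, hV, hVp, hVc⟩
    refine P.f_le (hstab (P.g Y) (P.g V) (hX₁.1 _ (P.prof_of_iprof hY))
      (hmux.1 _ (P.prof_of_iprof hVp)) ?_ fun n => ?_)
    · exact (((P.g_le_iff _ _).2 hV).trans (P.symm.join_le _ _)).trans
        (jn_mono (TR.refl _) (P.g_f _).1)
    · rw [col_mux]
      cases hn : X n
      · exact (P.g_f _).2.trans ((P.g_le_iff _ _).2 ((hVc n).2 hn))
      · exact (P.g_f _).2.trans ((P.g_le_iff _ _).2 ((hVc n).1 hn))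
  -- the image is accepted
  have hacc : P.Acc G R₀ R₁ X (P.f X) := by
    refine ⟨P.iprof_self hXi, P.f (mux X R₀ R₁), ?_, P.iprof_self hmux.2, fun n => ⟨?_, ?_⟩⟩
    · exact (P.mono (tr_mux _ _ _)).trans (P.join_le _ _)
    · intro hn
      have := P.mono (tr_col n (mux X R₀ R₁))
      rwa [col_mux, hn, cond_true] at this
    · intro hn
      have := P.mono (tr_col n (mux X R₀ R₁))
      rwa [col_mux, hn, cond_false] at this
  obtain ⟨e₀, he₀, he₀'⟩ := exists_ap (hX₂ _ (P.prof_image hXj))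
  have hc₀ : Cand e₀ X := ⟨he₀, by rw [he₀']; exact hacc⟩
  have hb₀ : Best e₀ X := ⟨hc₀, fun e' he' => by rw [he₀']; exact habove _ he'.2⟩
  have hex : ∃ e, Best e X := ⟨e₀, hb₀⟩
  have hF : F X = ap (Nat.find hex) (jn X C₂) := by
    funext p
    have hf : Fst (Nat.find hex) X := ⟨Nat.find_spec hex, fun e' he' => Nat.find_min hex he'⟩
    have huniq : ∀ e, Fst e X → e = Nat.find hex := fun e he =>
      le_antisymm (not_lt.1 fun h => he.2 _ h (Nat.find_spec hex)) (Nat.find_min' hex he.1)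
    apply Bool.eq_iff_iff.2
    simp only [F, decide_eq_true_eq]
    exact ⟨fun ⟨e, he, h⟩ => huniq e he ▸ h, fun h => ⟨_, hf, h⟩⟩
  rw [hF]
  refine ⟨?_, habove _ (Nat.find_spec hex).1.2⟩
  have := (Nat.find_spec hex).2 e₀ hc₀
  rwa [he₀'] at this

end Aut

end Vale.Agent.P327
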