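import Vale.Agent.P327.Kmap

/-!
Generic open-map facts, the stabilizer lemma, and Baire measurability of an automorphism on a
comeagre set.
-/

namespace Vale.Agent.P327

open Topology Filter Set

theorem colv_of_lt {p k n : ℕ} (hp : p < k) (hn : k ≤ n) (Z : Cant) : colv n Z p = false := by
  have : ci p ≤ p := Nat.unpair_left_le p
  simp [colv, show ci p ≠ n by omega]

theorem bx_colv_eq {A B Z : Cant} {p k n : ℕ} (hp : p < k) (hn : k ≤ n) (h : A p = B p) :
    bx A (colv n Z) p = B p := by
  simp [bx, colv_of_lt hp hn, h]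

theorem continuous_bx : Continuous fun q : Cant × Cant => bx q.1 q.2 :=
  continuous_pi fun p => by
    simp only [bx]
    have hb : Continuous (fun w : Bool × Bool => xor w.1 w.2) := continuous_of_discreteTopology
    exact hb.comp (f := fun q : Cant × Cant => (q.1 p, q.2 p)) (by fun_prop)

theorem continuous_colv (n : ℕ) : Continuous fun Z : Cant => colv n Z :=
  continuous_pi fun p => by
    simp only [colv]
    exact (continuous_of_discreteTopology (f := fun w : Bool => decide (ci p = n) && w)).comp
      (continuous_apply (ri p))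

theorem continuous_sh : Continuous sh :=
  continuous_pi fun p => by
    simp only [sh]
    exact (continuous_of_discreteTopology (f := fun w : Bool => decide (0 < ci p) && w)).comp
      (continuous_apply (Nat.pair (ci p - 1) (ri p)))

theorem continuous_col (n : ℕ) : Continuous fun G : Cant => col n G :=
  continuous_pi fun i => continuous_apply (Nat.pair n i)

theorem continuous_del (n : ℕ) : Continuous fun G : Cant => del n G :=
  continuous_pi fun p => by
    simp only [del]
    exact (continuous_of_discreteTopology (f := fun w : Bool => !decide (ci p = n) && w)).comp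
      (continuous_apply p)

theorem continuous_mux : Continuous fun q : Cant × (Cant × Cant) => mux q.1 q.2.1 q.2.2 :=
  continuous_pi fun p => by
    simp only [mux]
    have hb : Continuous (fun w : Bool × (Bool × Bool) => bif w.1 then w.2.2 else w.2.1) :=
      continuous_of_discreteTopology
    exact hb.comp (f := fun q : Cant × (Cant × Cant) => (q.1 (ci p), (q.2.1 p, q.2.2 p))) (by fun_prop)

/-- The triple swap behind `mux`. -/
def muxSwap (q : Cant × (Cant × Cant)) : Cant × (Cant × Cant) :=
  (q.1, (mux q.1 q.2.1 q.2.2, mux q.1 q.2.2 q.2.1))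

theorem muxSwap_invol : Function.Involutive muxSwap := by
  rintro ⟨A, R₀, R₁⟩
  simp only [muxSwap, Prod.mk.injEq, true_and]
  constructor <;> funext p <;> cases h : A (ci p) <;> simp [mux, h]

theorem continuous_muxSwap : Continuous muxSwap :=
  continuous_fst.prodMk (continuous_mux.prodMk
    (continuous_mux.comp (continuous_fst.prodMk
      ((continuous_snd.comp continuous_snd).prodMk (continuous_fst.comp continuous_snd)))))

theorem ev_mux {P : Cant → Prop} (h : ∀ᶠ X in residual Cant, P X) :
    ∀ᶠ q in residual (Cant × (Cant × Cant)), P (mux q.1 q.2.1 q.2.2) :=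
  ev_invol continuous_muxSwap muxSwap_invol
    (P := fun q => P q.2.1) (ev_comp continuous_snd isOpenMap_snd
      (ev_comp (f := fun q : Cant × Cant => q.1) continuous_fst isOpenMap_fst h))

/-- `jn` as a homeomorphism. -/
def jnH : (Cant × Cant) ≃ₜ Cant where
  toFun q := jn q.1 q.2
  invFun X := (fun n => X (2 * n), fun n => X (2 * n + 1))
  left_inv q := by simp
  right_inv X := by
    funext n
    have h1 : n.bodd = true → 2 * n.div2 + 1 = n := fun h => by
      have := Nat.bodd_add_div2 n; simp [h] at this; omega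
    have h2 : n.bodd = false → 2 * n.div2 = n := fun h => by
      have := Nat.bodd_add_div2 n; simp [h] at this; omega
    cases hb : n.bodd <;> simp [jn, hb, h1, h2]
  continuous_toFun := continuous_jn
  continuous_invFun := (continuous_pi fun n => continuous_apply (2 * n)).prodMk
    (continuous_pi fun n => continuous_apply (2 * n + 1))

theorem isOpenMap_jn : IsOpenMap fun q : Cant × Cant => jn q.1 q.2 := jnH.isOpenMap

/-- Translation of the first coordinate by a column of the second. -/
def trans1 (n : ℕ) (q : Cant × Cant) : Cant × Cant := (bx q.1 (colv n q.2), q.2)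

theorem trans1_invol (n : ℕ) : Function.Involutive (trans1 n) := fun q => by
  simp [trans1, bx_bx]

theorem continuous_trans1 (n : ℕ) : Continuous (trans1 n) :=
  (continuous_bx.comp (continuous_fst.prodMk ((continuous_colv n).comp continuous_snd))).prodMk
    continuous_snd

/-- A set containing an independent family of columns. -/
theorem ev_indep : ∀ᶠ G in residual Cant, ∀ n, ¬ TR (col n G) (del n G) := by
  rw [eventually_countable_forall]
  intro n
  have hm : MeasurableSet {G : Cant | TR (col n G) (del n G)} := measurableSet_setOfPred.2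
    (measurable_tr (continuous_col n).measurable (continuous_del n).measurable)
  have hf : Continuous fun q : Cant × Cant => bx q.1 (colv n q.2) :=
    continuous_fst.comp (continuous_trans1 n)
  have h2 : ∀ᶠ q in residual (Cant × Cant), q ∉ {q : Cant × Cant | bx q.1 (colv n q.2) ∈
      {G : Cant | TR (col n G) (del n G)}} := by
    refine ev_of_sections (hf.measurable hm) (Eventually.of_forall fun G' => ?_)
    filter_upwards [ev_not_mem_countable
      ((countable_below (del n G')).image fun W => bx W (col n G'))] with Z hZ' hmem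
    apply hZ'
    refine ⟨bx (col n G') Z, ?_, ?_⟩
    · have hdel : del n (bx G' (colv n Z)) = del n G' := by
        funext p
        by_cases hp : ci p = n <;> simp [del, bx, colv, hp]
      simp only [mem_ofPred_eq] at hmem ⊢
      rwa [col_bx, col_colv, hdel] at hmem
    · show bx (bx (col n G') Z) (col n G') = Z
      rw [bx_comm (col n G') Z, bx_bx]
  obtain ⟨U, hU, he⟩ := exists_open_ev hm
  have h1 : ∀ᶠ q in residual (Cant × Cant), (bx q.1 (colv n q.2) ∈ {G : Cant | TR (col n G) (del n G)} ↔
      bx q.1 (colv n q.2) ∈ U) :=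
    ev_invol (continuous_trans1 n) (trans1_invol n)
      (P := fun q => q.1 ∈ {G : Cant | TR (col n G) (del n G)} ↔ q.1 ∈ U)
      (ev_comp continuous_fst isOpenMap_fst he)
  have hUe : U = ∅ := by
    by_contra hne
    obtain ⟨G, hG⟩ := nonempty_iff_ne_empty.2 hne
    have hz : bx G (colv n fun _ => false) = G := by funext p; simp [bx, colv]
    obtain ⟨q, hq, hq1, hq2⟩ := exists_mem_open (h1.and h2) (hU.preimage hf)
      ⟨(G, fun _ => false), by simpa [hz] using hG⟩
    exact hq2 (hq1.2 hq)
  filter_upwards [he] with G hG h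
  have := hG.1 h
  simp [hUe] at this

/-! ### The stabilizer lemma -/

/-- The locally constant predicate of the stabilizer lemma. -/
def QS (C : Cant) (e j i : ℕ) : Set (Cant × (Cant × Cant)) :=
  {t | Tot e (jn t.1 C) ∧ Tot j (jn (mux t.1 t.2.1 t.2.2) C) ∧
    Red (fnl i).1 (jn (ap e (jn t.1 C)) (jn t.2.1 t.2.2)) (ap j (jn (mux t.1 t.2.1 t.2.2) C)) ∧
    ∀ n, TR (col n (mux t.1 t.2.1 t.2.2)) (ap j (jn (mux t.1 t.2.1 t.2.2) C))}

theorem measurableSet_QS (C : Cant) (e j i : ℕ) : MeasurableSet (QS C e j i) := by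
  have hA : Measurable fun t : Cant × (Cant × Cant) => t.1 := measurable_fst
  have hM : Measurable fun t : Cant × (Cant × Cant) => mux t.1 t.2.1 t.2.2 := continuous_mux.measurable
  have hR : Measurable fun t : Cant × (Cant × Cant) => jn t.2.1 t.2.2 :=
    continuous_jn.measurable.comp measurable_snd
  refine measurableSet_setOfPred.2 ((measurable_tot e (measurable_jn hA measurable_const)).and
    ((measurable_tot j (measurable_jn hM measurable_const)).and
    ((measurable_red _ (measurable_jn (measurable_ap e (measurable_jn hA measurable_const)) hR)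
      (measurable_ap j (measurable_jn hM measurable_const))).and
    (Measurable.forall fun n => measurable_tr ((continuous_col n).measurable.comp hM)
      (measurable_ap j (measurable_jn hM measurable_const))))))

/-- Translate `R₀` in a quadruple. -/
def tz0 (n : ℕ) (q : (Cant × (Cant × Cant)) × Cant) : (Cant × (Cant × Cant)) × Cant :=
  ((q.1.1, (bx q.1.2.1 (colv n q.2), q.1.2.2)), q.2)

/-- Translate `R₁` in a quadruple. -/
def tz1 (n : ℕ) (q : (Cant × (Cant × Cant)) × Cant) : (Cant × (Cant × Cant)) × Cant :=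
  ((q.1.1, (q.1.2.1, bx q.1.2.2 (colv n q.2))), q.2)

theorem continuous_tz0 (n : ℕ) : Continuous (tz0 n) :=
  ((continuous_fst.comp continuous_fst).prodMk
    ((continuous_bx.comp ((continuous_fst.comp (continuous_snd.comp continuous_fst)).prodMk
      ((continuous_colv n).comp continuous_snd))).prodMk
      (continuous_snd.comp (continuous_snd.comp continuous_fst)))).prodMk continuous_snd

theorem continuous_tz1 (n : ℕ) : Continuous (tz1 n) :=
  ((continuous_fst.comp continuous_fst).prodMk
    ((continuous_fst.comp (continuous_snd.comp continuous_fst)).prodMk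
      (continuous_bx.comp ((continuous_snd.comp (continuous_snd.comp continuous_fst)).prodMk
        ((continuous_colv n).comp continuous_snd))))).prodMk continuous_snd

theorem tz0_invol (n : ℕ) : Function.Involutive (tz0 n) := fun q => by simp [tz0, bx_bx]

theorem tz1_invol (n : ℕ) : Function.Involutive (tz1 n) := fun q => by simp [tz1, bx_bx]

theorem nhd3 {U : Set (Cant × (Cant × Cant))} (hU : IsOpen U) {A R₀ R₁ : Cant}
    (h : (A, (R₀, R₁)) ∈ U) : ∃ k, ∀ R₀' R₁' : Cant, (∀ p < k, R₀' p = R₀ p) → (∀ p < k, R₁' p = R₁ p) →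
      (A, (R₀', R₁')) ∈ U := by
  obtain ⟨a, b, -, hb, hxa, hyb, hab⟩ := isOpen_prod_iff.1 hU A (R₀, R₁) h
  obtain ⟨c, d, hc, hd, hxc, hyd, hcd⟩ := isOpen_prod_iff.1 hb R₀ R₁ hyb
  obtain ⟨k, hk⟩ := nhd_cyl hc hxc
  obtain ⟨l, hl⟩ := nhd_cyl hd hyd
  exact ⟨max k l, fun R₀' R₁' h0 h1 => hab ⟨hxa, hcd
    ⟨hk _ fun p hp => h0 p (lt_max_of_lt_left hp), hl _ fun p hp => h1 p (lt_max_of_lt_right hp)⟩⟩⟩

theorem bx_cancel_le {A B Z : Cant} (h : TR (bx A Z) B) (hA : TR A B) : TR Z B := by
  have : bx (bx A Z) A = Z := by rw [bx_comm A Z, bx_bx]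
  rw [← this]
  exact (tr_bx _ _).trans (jn_tr h hA)

theorem stab (C : Cant) : ∀ᶠ t in residual (Cant × (Cant × Cant)), ∀ W V, TR W (jn t.1 C) →
    TR V (jn (mux t.1 t.2.1 t.2.2) C) → TR V (jn W (jn t.2.1 t.2.2)) →
    (∀ n, TR (col n (mux t.1 t.2.1 t.2.2)) V) → TR t.1 W := by
  choose O hO hOe using fun e j i => exists_open_ev (measurableSet_QS C e j i)
  have hb : ∀ᶠ t in residual (Cant × (Cant × Cant)), ∀ e j i, (t ∈ QS C e j i ↔ t ∈ O e j i) := by
    simp only [eventually_countable_forall]; exact hOe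
  have hq : ∀ᶠ q in residual ((Cant × (Cant × Cant)) × Cant),
      ∀ e j i, (q.1 ∈ QS C e j i ↔ q.1 ∈ O e j i) := ev_comp continuous_fst isOpenMap_fst hb
  have hq0 : ∀ᶠ q in residual ((Cant × (Cant × Cant)) × Cant), ∀ n e j i,
      ((tz0 n q).1 ∈ QS C e j i ↔ (tz0 n q).1 ∈ O e j i) :=
    eventually_countable_forall.2 fun n => ev_invol (continuous_tz0 n) (tz0_invol n)
      (P := fun q => ∀ e j i, (q.1 ∈ QS C e j i ↔ q.1 ∈ O e j i)) hq
  have hq1 : ∀ᶠ q in residual ((Cant × (Cant × Cant)) × Cant), ∀ n e j i,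
      ((tz1 n q).1 ∈ QS C e j i ↔ (tz1 n q).1 ∈ O e j i) :=
    eventually_countable_forall.2 fun n => ev_invol (continuous_tz1 n) (tz1_invol n)
      (P := fun q => ∀ e j i, (q.1 ∈ QS C e j i ↔ q.1 ∈ O e j i)) hq
  have hz : ∀ᶠ q in residual ((Cant × (Cant × Cant)) × Cant),
      q ∉ {q : (Cant × (Cant × Cant)) × Cant | TR q.2 (jn q.1.1 (jn (jn q.1.2.1 q.1.2.2) C))} := by
    refine ev_of_sections (measurableSet_setOfPred.2 (measurable_tr measurable_snd ?_))
      (Eventually.of_forall fun t => ?_)
    · exact measurable_jn (measurable_fst.comp measurable_fst)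
        (measurable_jn (measurable_jn (measurable_fst.comp (measurable_snd.comp measurable_fst))
          (measurable_snd.comp (measurable_snd.comp measurable_fst))) measurable_const)
    · filter_upwards [ev_not_mem_countable (countable_below (jn t.1 (jn (jn t.2.1 t.2.2) C)))] with Z hZ h
      exact hZ h
  -- cone avoidance for the pins
  have hW : ∀ᶠ t in residual (Cant × (Cant × Cant)),
      t ∉ {t : Cant × (Cant × Cant) | ∃ e, Tot e (jn t.1 C) ∧ ¬ TR t.1 (ap e (jn t.1 C)) ∧
        TR t.1 (jn (ap e (jn t.1 C)) (jn t.2.1 t.2.2))} := by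
    refine ev_of_sections (measurableSet_setOfPred.2 (Measurable.exists fun e => ?_))
      (Eventually.of_forall fun A => ?_)
    · have hA := measurable_jn (α := Cant × (Cant × Cant)) measurable_fst (measurable_const (a := C))
      exact (measurable_tot e hA).and ((measurable_tr measurable_fst (measurable_ap e hA)).not.and
        (measurable_tr measurable_fst (measurable_jn (measurable_ap e hA)
          (continuous_jn.measurable.comp measurable_snd))))
    · have : ∀ e, ∀ᶠ r in residual (Cant × Cant), ¬ TR A (ap e (jn A C)) →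
          ¬ TR A (jn (ap e (jn A C)) (jn r.1 r.2)) := by
        intro e
        by_cases h : TR A (ap e (jn A C))
        · exact Eventually.of_forall fun r hr => absurd h hr
        · exact (ev_comp continuous_jn isOpenMap_jn (ev_avoid h)).mono fun r hr _ => hr
      filter_upwards [eventually_countable_forall.2 this] with r hr
      rintro ⟨e, -, h1, h2⟩
      exact hr e h1 h2
  filter_upwards [ev_sections (hq.and (hq0.and (hq1.and hz))), hW] with t ht htW
  obtain ⟨A, R₀, R₁⟩ := t
  intro W V hW' hV hV' hcol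
  dsimp only at *
  by_contra hAW
  obtain ⟨e, he, rfl⟩ := exists_ap hW'
  have hAR : ¬ TR A (jn (ap e (jn A C)) (jn R₀ R₁)) := fun h => htW ⟨e, he, hAW, h⟩
  obtain ⟨Z, ⟨hg, hg0, hg1, hgz⟩, hZ⟩ := exists_ev (ht.and (ev_avoid hAR))
  apply hZ
  obtain ⟨j, hj, rfl⟩ := exists_ap hV
  obtain ⟨i, hi⟩ := tr_iff.1 hV'
  have hQ : (A, (R₀, R₁)) ∈ QS C e j i := ⟨he, hj, hi, hcol⟩
  obtain ⟨m, hm⟩ := nhd3 (hO e j i) ((hg e j i).1 hQ)
  have hn0 : ∀ k, (A, (bx R₀ (colv (m + k) Z), R₁)) ∈ QS C e j i := fun k =>
    (hg0 (m+k) e j i).2 (hm _ _ (fun p hp => bx_colv_eq hp (Nat.le_add_right m k) rfl) (fun p _ => rfl))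
  have hn1 : ∀ k, (A, (R₀, bx R₁ (colv (m + k) Z))) ∈ QS C e j i := fun k =>
    (hg1 (m+k) e j i).2 (hm _ _ (fun p _ => rfl) (fun p hp => bx_colv_eq hp (Nat.le_add_right m k) rfl))
  have hW0 : TR (ap e (jn A C)) (jn (jn (ap e (jn A C)) (jn R₀ R₁)) Z) := (tr_jn_left _ _).jl Z
  have hR0 : TR R₀ (jn (jn (ap e (jn A C)) (jn R₀ R₁)) Z) := ((tr_jn_left _ _).jr _).jl Z
  have hR1 : TR R₁ (jn (jn (ap e (jn A C)) (jn R₀ R₁)) Z) := ((tr_jn_right _ _).jr _).jl Z
  have hZ0 : TR Z (jn (jn (ap e (jn A C)) (jn R₀ R₁)) Z) := tr_jn_right _ _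
  have hs := ((US.const hW0).join ((US.transl m hR0 hZ0).join (US.const hR1))).map (fnl i).2
    (fun k => (hn0 k).2.2.1)
  have ht' := ((US.const hW0).join ((US.const hR0).join (US.transl m hR1 hZ0))).map (fnl i).2
    (fun k => (hn1 k).2.2.1)
  have hu := US.const (hV'.trans (tr_jn_left _ Z))
  have key : ∀ k (Y₀ Y₁ : Cant), ap j (jn (mux A Y₀ Y₁) C) = ap j (jn (mux A R₀ R₁) C) →
      (A, (Y₀, Y₁)) ∈ QS C e j i →
      TR (col (m + k) (mux A Y₀ Y₁)) (jn A (jn (jn R₀ R₁) C)) := by
    intro k Y₀ Y₁ heq hmem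
    refine ((hmem.2.2.2 (m + k)).trans ?_)
    show TR (ap j (jn (mux A Y₀ Y₁) C)) _
    rw [heq]
    refine (tr_of_tot hj).trans (jn_tr ?_ ((tr_jn_right _ _).jr _))
    exact (tr_mux _ _ _).trans (jn_mono (TR.refl _) (tr_jn_left _ _))
  refine tr_decode (m := m) hs ht' hu hu (fun k hk => ⟨?_, fun heq => hgz ?_⟩)
    (fun k hk => ⟨?_, fun heq => hgz ?_⟩)
  · have : mux A (bx R₀ (colv (m + k) Z)) R₁ = mux A R₀ R₁ := by
      funext p
      by_cases hp : ci p = m + k
      · simp [mux, hp, hk]
      · simp [mux, bx, colv, hp]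
    rw [this]
  · have := key k _ _ heq (hn1 k)
    rw [col_mux, hk, cond_true, col_bx, col_colv] at this
    exact bx_cancel_le this ((tr_col _ _).trans (((tr_jn_right _ _).jl _).jr _))
  · have : mux A R₀ (bx R₁ (colv (m + k) Z)) = mux A R₀ R₁ := by
      funext p
      by_cases hp : ci p = m + k
      · simp [mux, hp, hk]
      · simp [mux, bx, colv, hp]
    rw [this]
  · have := key k _ _ heq (hn0 k)
    rw [col_mux, hk, cond_false, col_bx, col_colv] at this
    exact bx_cancel_le this ((tr_col _ _).trans (((tr_jn_left _ _).jl _).jr _))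

end Vale.Agent.P327
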